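import Mathlib
import Vale.Agent.P296.Algebra.Interface
import Vale.Agent.P296.Analysis.Interface

/-! Elementary bounds on the four distinguished functionals in the two frames. -/

open Complex ComplexConjugate

noncomputable section

namespace Vale.Agent.P296.Br

variable {m : ℕ} {z s u v : ℂ}

/-- `max 1 |z^m|`. -/
def amax (m : ℕ) (z : ℂ) : ℝ := max 1 ‖z ^ m‖

theorem one_le_amax (m : ℕ) (z : ℂ) : 1 ≤ amax m z := le_max_left _ _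

theorem norm_le_amax (m : ℕ) (z : ℂ) : ‖z ^ m‖ ≤ amax m z := le_max_right _ _

theorem amax_sq_le (m : ℕ) (z : ℂ) : amax m z ^ 2 ≤ 1 + ‖z ^ m‖ ^ 2 := by
  unfold amax
  rcases max_cases 1 ‖z ^ m‖ with ⟨h, -⟩ | ⟨h, -⟩ <;> rw [h] <;> nlinarith [sq_nonneg ‖z ^ m‖]

theorem le_amax_sq (m : ℕ) (z : ℂ) : 1 + ‖z ^ m‖ ^ 2 ≤ 2 * amax m z ^ 2 := by
  nlinarith [one_le_amax m z, norm_le_amax m z, norm_nonneg (z ^ m)]

theorem six (s : ℂ) : s ^ (6 * m) = (s ^ m) ^ 6 := by rw [← pow_mul, mul_comm]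

theorem norm_u_le (h : An.OnCurve m s u v) : ‖u‖ ≤ 2 * amax m s ^ 3 ∧ ‖v‖ ≤ 2 * amax m s ^ 3 := by
  have hB := one_le_amax m s
  have h6 : ‖s ^ m‖ ^ 6 ≤ amax m s ^ 6 :=
    pow_le_pow_left₀ (norm_nonneg _) (norm_le_amax m s) 6
  have h1 : 1 ≤ amax m s ^ 6 := one_le_pow₀ hB
  have key : ∀ w : ℂ, ‖w‖ ^ 2 ≤ ‖s ^ m‖ ^ 6 + 1 → ‖w‖ ≤ 2 * amax m s ^ 3 := by
    intro w hw
    nlinarith [norm_nonneg w, pow_nonneg (zero_le_one.trans hB) 3]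
  constructor <;> apply key
  · rw [← norm_pow, h.1, An.pp, six]
    exact (norm_sub_le _ _).trans (by simp [norm_pow])
  · rw [← norm_pow, h.2, An.qq, six]
    exact (norm_add_le _ _).trans (by simp [norm_pow])

theorem amax_le_uv (h : An.OnCurve m s u v) : amax m s ^ 6 ≤ ‖u‖ ^ 2 + ‖v‖ ^ 2 := by
  rw [← norm_pow u, ← norm_pow v, h.1, h.2, An.pp, An.qq, six]
  have h1 : ‖(s ^ m) ^ 6 + (s ^ m) ^ 6‖ ≤ ‖(s ^ m) ^ 6 - 1‖ + ‖(s ^ m) ^ 6 + 1‖ := by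
    conv_lhs => rw [show (s ^ m) ^ 6 + (s ^ m) ^ 6 = ((s ^ m) ^ 6 - 1) + ((s ^ m) ^ 6 + 1) by ring]
    exact norm_add_le _ _
  have h2 : ‖(1 : ℂ) + 1‖ ≤ ‖(s ^ m) ^ 6 - 1‖ + ‖(s ^ m) ^ 6 + 1‖ := by
    conv_lhs => rw [show (1 : ℂ) + 1 = ((s ^ m) ^ 6 + 1) - ((s ^ m) ^ 6 - 1) by ring]
    exact (norm_sub_le _ _).trans (add_comm _ _).le
  rw [← two_mul, norm_mul, norm_pow, Complex.norm_two] at h1
  norm_num at h2
  unfold amax
  rcases max_cases 1 ‖s ^ m‖ with ⟨h, -⟩ | ⟨h, -⟩ <;> rw [h]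
  · norm_num; linarith
  · linarith [pow_nonneg (norm_nonneg (s ^ m)) 6]

theorem den_eq (m : ℕ) (z : ℂ) :
    (1 : ℂ) + ((‖z ^ m‖ ^ 2 : ℝ) : ℂ) = 1 + z ^ m * conj (z ^ m) := by
  rw [Complex.mul_conj', Complex.ofReal_pow]

theorem norm_den (m : ℕ) (z : ℂ) :
    ‖(1 : ℂ) + ((‖z ^ m‖ ^ 2 : ℝ) : ℂ)‖ = 1 + ‖z ^ m‖ ^ 2 := by
  rw [← Complex.ofReal_one, ← Complex.ofReal_add, Complex.norm_real, Real.norm_eq_abs,
    abs_of_pos (by positivity)]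

theorem den_ne (m : ℕ) (z : ℂ) : (1 : ℂ) + ((‖z ^ m‖ ^ 2 : ℝ) : ℂ) ≠ 0 := by
  rw [← norm_pos_iff, norm_den]; positivity

theorem norm_theta (m : ℕ) (z : ℂ) : ‖An.theta m z‖ ≤ 1 / amax m z := by
  have hA := one_le_amax m z
  rw [An.theta, norm_div, norm_den, RCLike.norm_conj, div_le_div_iff₀ (by positivity) (by linarith)]
  unfold amax
  rcases max_cases 1 ‖z ^ m‖ with ⟨h, -⟩ | ⟨h, -⟩ <;> rw [h] <;>
    nlinarith [sq_nonneg (‖z ^ m‖ - 1), norm_nonneg (z ^ m)]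

theorem norm_rr (m : ℕ) (z s : ℂ) : ‖An.rr m z s‖ ≤ 2 * amax m s / amax m z := by
  have hA := one_le_amax m z
  have hB := one_le_amax m s
  rw [An.rr, norm_div, norm_den, div_le_div_iff₀ (by positivity) (by linarith)]
  have h1 : ‖1 + conj (z ^ m) * s ^ m‖ ≤ 2 * (amax m z * amax m s) := by
    refine (norm_add_le _ _).trans ?_
    rw [norm_one, norm_mul, RCLike.norm_conj]
    have := mul_le_mul (norm_le_amax m z) (norm_le_amax m s) (norm_nonneg _) (by linarith)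
    nlinarith
  calc ‖1 + conj (z ^ m) * s ^ m‖ * amax m z ≤ 2 * (amax m z * amax m s) * amax m z :=
        mul_le_mul_of_nonneg_right h1 (by linarith)
    _ = 2 * amax m s * amax m z ^ 2 := by ring
    _ ≤ 2 * amax m s * (1 + ‖z ^ m‖ ^ 2) :=
        mul_le_mul_of_nonneg_left (amax_sq_le m z) (by linarith)

theorem geom5 {x : ℂ} {R : ℝ} (h : ‖x‖ ≤ R) :
    ‖∑ i ∈ Finset.range 5, x ^ i‖ ≤ 1 + R + R ^ 2 + R ^ 3 + R ^ 4 := by
  refine (norm_sum_le _ _).trans ?_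
  simp only [Finset.sum_range_succ, Finset.sum_range_zero, norm_pow, zero_add, pow_zero, pow_one]
  have h0 := norm_nonneg x
  gcongr

/-- The `h`-component of `gG`. -/
theorem gG_two (m : ℕ) (z s u v : ℂ) : An.gG m z s u v 2 = An.rr m z s ^ 5 := by
  have h := den_ne m z
  simp only [An.gG, An.q1, Pi.add_apply, Pi.smul_apply, smul_eq_mul, Matrix.cons_val,
    Finset.sum_range_succ, Finset.sum_range_zero, An.theta, An.rr]
  rw [den_eq] at h ⊢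
  field_simp
  ring

/-- `(ρ₀ - ρ₁)/F` in the affine chart. -/
def dAff (m : ℕ) (z s : ℂ) : ℂ :=
  (∑ i ∈ Finset.range 5, (s ^ m) ^ i * (z ^ m) ^ (4 - i)) / (s ^ m) ^ 5

theorem gG_frame (m : ℕ) (z s : ℂ) (hs : s ^ m ≠ 0) :
    An.theta m z * (∑ i ∈ Finset.range 5, An.rr m z s ^ i) - An.rr m z s ^ 5 * dAff m z s =
      -(∑ i ∈ Finset.range 5, (An.rr m z s * z ^ m / s ^ m) ^ i) /
        (s ^ m * (1 + ((‖z ^ m‖ ^ 2 : ℝ) : ℂ))) := by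
  have h := den_ne m z
  simp only [Finset.sum_range_succ, Finset.sum_range_zero, An.theta, An.rr, dAff]
  rw [den_eq] at h ⊢
  field_simp
  ring

theorem q1_frame (m : ℕ) (z s : ℂ) (hs : s ^ m ≠ 0) :
    1 - (s ^ m - z ^ m) * dAff m z s = (z ^ m / s ^ m) ^ 5 := by
  simp only [Finset.sum_range_succ, Finset.sum_range_zero, dAff]
  field_simp
  ring

end Vale.Agent.P296.Br
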