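import Mathlib
import Vale.Agent.P296.Defs
import Vale.Agent.P296.Analysis.Interface

/-! Wirtinger calculus in one variable. -/

open scoped ContDiff Topology
open Complex ComplexConjugate

noncomputable section

namespace Vale.Agent.P296.Br

open An (del delBar)

/-- `h ↦ a h + b h̄`. -/
def wlin (a b : ℂ) : ℂ →L[ℝ] ℂ :=
  a • (ContinuousLinearMap.id ℝ ℂ) + b • (conjCLE : ℂ →L[ℝ] ℂ)

theorem wlin_apply (a b h : ℂ) : wlin a b h = a * h + b * conj h := rfl

/-- `f` is differentiable at `t`, with `∂f = a`, `∂̄f = b`. -/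
def HasWirt (f : ℂ → ℂ) (a b t : ℂ) : Prop := HasFDerivAt f (wlin a b) t

theorem HasWirt.del {f : ℂ → ℂ} {a b t : ℂ} (h : HasWirt f a b t) : del f t = a := by
  unfold An.del
  rw [HasFDerivAt.fderiv h, wlin_apply, wlin_apply, map_one, conj_I]
  linear_combination (1 / 2 * (b - a)) * I_mul_I

theorem HasWirt.delBar {f : ℂ → ℂ} {a b t : ℂ} (h : HasWirt f a b t) : delBar f t = b := by
  unfold An.delBar
  rw [HasFDerivAt.fderiv h, wlin_apply, wlin_apply, map_one, conj_I]
  linear_combination (1 / 2 * (a - b)) * I_mul_I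

theorem clm_eq_wlin (L : ℂ →L[ℝ] ℂ) :
    L = wlin (1 / 2 * (L 1 - I * L I)) (1 / 2 * (L 1 + I * L I)) := by
  ext h
  have : L h = (h.re : ℂ) * L 1 + (h.im : ℂ) * L I := by
    conv_lhs => rw [show h = h.re • (1 : ℂ) + h.im • I by simp [Complex.re_add_im]]
    rw [map_add, map_smul, map_smul, real_smul, real_smul]
  rw [wlin_apply, this]
  conv_rhs => rw [← re_add_im h]
  simp only [map_add, map_mul, conj_ofReal, conj_I]
  linear_combination ((h.im : ℂ) * L I) * I_mul_I

theorem hasWirt_of_differentiableAt {f : ℂ → ℂ} {t : ℂ} (h : DifferentiableAt ℝ f t) :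
    HasWirt f (del f t) (delBar f t) t := by
  unfold HasWirt An.del An.delBar
  rw [← clm_eq_wlin]
  exact h.hasFDerivAt

theorem HasWirt.congr {f g : ℂ → ℂ} {a b t : ℂ} (h : HasWirt f a b t) (e : g =ᶠ[𝓝 t] f) :
    HasWirt g a b t := h.congr_of_eventuallyEq e

theorem HasWirt.add {f g : ℂ → ℂ} {a b a' b' t : ℂ} (h : HasWirt f a b t)
    (h' : HasWirt g a' b' t) : HasWirt (fun x => f x + g x) (a + a') (b + b') t :=
  (HasFDerivAt.add h h').congr_fderiv (by ext x; simp [wlin_apply]; ring)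

theorem HasWirt.const (c t : ℂ) : HasWirt (fun _ => c) 0 0 t :=
  (hasFDerivAt_const c t).congr_fderiv (by ext x; simp [wlin_apply])

theorem HasWirt.mul {f g : ℂ → ℂ} {a b a' b' t : ℂ} (h : HasWirt f a b t)
    (h' : HasWirt g a' b' t) :
    HasWirt (fun x => f x * g x) (a * g t + f t * a') (b * g t + f t * b') t :=
  (HasFDerivAt.mul h h').congr_fderiv (by ext x; simp [wlin_apply]; ring)

/-- A holomorphic function. -/
theorem HasWirt.of_hasDerivAt {f : ℂ → ℂ} {a t : ℂ} (h : HasDerivAt f a t) : HasWirt f a 0 t :=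
  (h.hasFDerivAt.restrictScalars ℝ).congr_fderiv (by ext x; simp [wlin_apply, mul_comm])

/-- Composition with a holomorphic function. -/
theorem HasWirt.comp_hol {f g : ℂ → ℂ} {a b c t : ℂ} (hg : HasDerivAt g c (f t))
    (h : HasWirt f a b t) : HasWirt (fun x => g (f x)) (c * a) (c * b) t :=
  ((hg.hasFDerivAt.restrictScalars ℝ).comp t h).congr_fderiv
    (by ext x; simp [wlin_apply]; ring)

/-- Conjugation. -/
theorem HasWirt.conj {f : ℂ → ℂ} {a b t : ℂ} (h : HasWirt f a b t) :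
    HasWirt (fun x => conj (f x)) (conj b) (conj a) t := by
  have h2 : HasFDerivAt (fun z : ℂ => (starRingEnd ℂ) z) (conjCLE : ℂ →L[ℝ] ℂ) (f t) :=
    conjCLE.hasFDerivAt
  exact (h2.comp t h).congr_fderiv (by ext x; simp [wlin_apply]; ring)

theorem differentiableAt_del {f : ℂ → ℂ} {t : ℂ} (h : ContDiffAt ℝ 2 f t) :
    DifferentiableAt ℝ (del f) t ∧ DifferentiableAt ℝ (delBar f) t := by
  have h1 : ContDiffAt ℝ 1 (fderiv ℝ f) t := h.fderiv_right (by norm_num)
  have d := h1.differentiableAt one_ne_zero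
  have a1 : DifferentiableAt ℝ (fun x => fderiv ℝ f x 1) t :=
    d.clm_apply (differentiableAt_const _)
  have aI : DifferentiableAt ℝ (fun x => fderiv ℝ f x I) t :=
    d.clm_apply (differentiableAt_const _)
  exact ⟨(a1.sub (aI.const_mul I)).const_mul _, (a1.add (aI.const_mul I)).const_mul _⟩

/-! ### Matrices -/

abbrev M3 : Type := Matrix (Fin 3) (Fin 3) ℂ

def dM (G : ℂ → M3) (t : ℂ) : M3 := Matrix.of fun a b => del (fun x => G x a b) t

def dbM (G : ℂ → M3) (t : ℂ) : M3 := Matrix.of fun a b => delBar (fun x => G x a b) t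

/-- All entries are `C²` near `t`. -/
def C2M (G : ℂ → M3) (t : ℂ) : Prop := ∀ a b, ∀ᶠ x in 𝓝 t, ContDiffAt ℝ 2 (fun y => G y a b) x

/-- All entries are differentiable at `t`. -/
def D1M (G : ℂ → M3) (t : ℂ) : Prop := ∀ a b, DifferentiableAt ℝ (fun y => G y a b) t

theorem C2M.d1 {G : ℂ → M3} {t : ℂ} (h : C2M G t) : D1M G t :=
  fun a b => (h a b).self_of_nhds.differentiableAt two_ne_zero

theorem C2M.d1_ev {G : ℂ → M3} {t : ℂ} (h : C2M G t) : ∀ᶠ x in 𝓝 t, D1M G x := by
  have : ∀ᶠ x in 𝓝 t, ∀ a b, ContDiffAt ℝ 2 (fun y => G y a b) x :=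
    Filter.eventually_all.mpr fun a => Filter.eventually_all.mpr fun b => h a b
  filter_upwards [this] with x hx a b using (hx a b).differentiableAt two_ne_zero

theorem C2M.d1_dM {G : ℂ → M3} {t : ℂ} (h : C2M G t) : D1M (dM G) t :=
  fun a b => (differentiableAt_del (h a b).self_of_nhds).1

theorem C2M.congr {G G' : ℂ → M3} {t : ℂ} (h : C2M G t) (e : G' =ᶠ[𝓝 t] G) : C2M G' t := by
  intro a b
  filter_upwards [h a b, e.eventuallyEq_nhds] with x hx hex
  exact hx.congr_of_eventuallyEq (hex.fun_comp (fun M : M3 => M a b))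

theorem dM_congr {G G' : ℂ → M3} {t : ℂ} (e : G =ᶠ[𝓝 t] G') : dM G t = dM G' t := by
  ext a b
  simp only [dM, Matrix.of_apply, An.del]
  have h : (fun x => G x a b) =ᶠ[𝓝 t] fun x => G' x a b := e.fun_comp fun M : M3 => M a b
  rw [h.fderiv_eq (𝕜 := ℝ)]

theorem dbM_congr {G G' : ℂ → M3} {t : ℂ} (e : G =ᶠ[𝓝 t] G') : dbM G t = dbM G' t := by
  ext a b
  simp only [dbM, Matrix.of_apply, An.delBar]
  have h : (fun x => G x a b) =ᶠ[𝓝 t] fun x => G' x a b := e.fun_comp fun M : M3 => M a b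
  rw [h.fderiv_eq (𝕜 := ℝ)]

theorem dM_mul {A B : ℂ → M3} {t : ℂ} (hA : D1M A t) (hB : D1M B t) :
    dM (fun x => A x * B x) t = dM A t * B t + A t * dM B t := by
  ext a c
  simp only [dM, Matrix.of_apply, Matrix.add_apply, Matrix.mul_apply, Fin.sum_univ_three]
  have h := fun b => (hasWirt_of_differentiableAt (hA a b)).mul
    (hasWirt_of_differentiableAt (hB b c))
  rw [(((h 0).add (h 1)).add (h 2)).del]
  ring

theorem dbM_mul {A B : ℂ → M3} {t : ℂ} (hA : D1M A t) (hB : D1M B t) :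
    dbM (fun x => A x * B x) t = dbM A t * B t + A t * dbM B t := by
  ext a c
  simp only [dbM, Matrix.of_apply, Matrix.add_apply, Matrix.mul_apply, Fin.sum_univ_three]
  have h := fun b => (hasWirt_of_differentiableAt (hA a b)).mul
    (hasWirt_of_differentiableAt (hB b c))
  rw [(((h 0).add (h 1)).add (h 2)).delBar]
  ring

theorem dbM_add {A B : ℂ → M3} {t : ℂ} (hA : D1M A t) (hB : D1M B t) :
    dbM (fun x => A x + B x) t = dbM A t + dbM B t := by
  ext a c
  simp only [dbM, Matrix.of_apply, Matrix.add_apply]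
  exact ((hasWirt_of_differentiableAt (hA a c)).add (hasWirt_of_differentiableAt (hB a c))).delBar

theorem D1M.mul {A B : ℂ → M3} {t : ℂ} (hA : D1M A t) (hB : D1M B t) :
    D1M (fun x => A x * B x) t := by
  intro a c
  simp only [Matrix.mul_apply, Fin.sum_univ_three]
  exact (((hA a 0).mul (hB 0 c)).add ((hA a 1).mul (hB 1 c))).add ((hA a 2).mul (hB 2 c))

theorem D1M.add {A B : ℂ → M3} {t : ℂ} (hA : D1M A t) (hB : D1M B t) :
    D1M (fun x => A x + B x) t := fun a c => (hA a c).add (hB a c)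

theorem C2M.mul {A B : ℂ → M3} {t : ℂ} (hA : C2M A t) (hB : C2M B t) :
    C2M (fun x => A x * B x) t := by
  intro a c
  simp only [Matrix.mul_apply, Fin.sum_univ_three]
  filter_upwards [hA a 0, hA a 1, hA a 2, hB 0 c, hB 1 c, hB 2 c] with x p0 p1 p2 q0 q1 q2
  exact ((p0.mul q0).add (p1.mul q1)).add (p2.mul q2)

theorem C2M.transpose {A : ℂ → M3} {t : ℂ} (hA : C2M A t) : C2M (fun x => (A x).transpose) t :=
  fun a b => hA b a

theorem C2M.inv {G : ℂ → M3} {t : ℂ} (h : C2M G t) (hd : (G t).det ≠ 0) :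
    C2M (fun x => (G x)⁻¹) t := by
  have hall : ∀ᶠ x in 𝓝 t, ∀ a b, ContDiffAt ℝ 2 (fun y => G y a b) x :=
    Filter.eventually_all.mpr fun a => Filter.eventually_all.mpr fun b => h a b
  have hdet : ∀ x, (∀ a b, ContDiffAt ℝ 2 (fun y => G y a b) x) →
      ContDiffAt ℝ 2 (fun y => (G y).det) x := by
    intro x hx
    simp only [Matrix.det_fin_three]
    fun_prop
  have hne : ∀ᶠ x in 𝓝 t, (G x).det ≠ 0 :=
    (hdet t hall.self_of_nhds).continuousAt.eventually_ne hd
  intro a b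
  filter_upwards [hall, hne] with x hx hnx
  have hdx := hdet x hx
  simp only [Matrix.inv_def, Matrix.smul_apply, smul_eq_mul, Ring.inverse_eq_inv']
  refine (hdx.inv hnx).mul ?_
  simp only [Matrix.adjugate_fin_three]
  fin_cases a <;> fin_cases b <;> simp <;> fun_prop

end Vale.Agent.P296.Br
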