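import Mathlib
import Vale.Agent.P296.Bridge.Wirt

/-! Curvature of the dual metric, of congruences, of rescalings, and along curves. -/

open scoped ContDiff Topology
open Complex ComplexConjugate

noncomputable section

namespace Vale.Agent.P296.Br

open An (del delBar dualCurv)

/-- The lowered curvature of a metric on a curve. -/
def curv1 (G : ℂ → M3) (t : ℂ) : M3 := - dbM (dM G) t + dbM G t * (G t)⁻¹ * dM G t

theorem dualCurv_eq (G : ℂ → M3) (t : ℂ) :
    dualCurv G t = dbM (dM G) t - dbM G t * (G t)⁻¹ * dM G t := rfl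

theorem dM_const (C : M3) (t : ℂ) : dM (fun _ => C) t = 0 := by
  ext a b; exact (HasWirt.const (C a b) t).del

theorem dbM_const (C : M3) (t : ℂ) : dbM (fun _ => C) t = 0 := by
  ext a b; exact (HasWirt.const (C a b) t).delBar

theorem dM_neg (A : ℂ → M3) (t : ℂ) : dM (fun x => - A x) t = - dM A t := by
  ext a b
  simp only [dM, Matrix.of_apply, Matrix.neg_apply, An.del, fderiv_fun_neg,
    neg_apply]
  ring

theorem dbM_neg (A : ℂ → M3) (t : ℂ) : dbM (fun x => - A x) t = - dbM A t := by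
  ext a b
  simp only [dbM, Matrix.of_apply, Matrix.neg_apply, An.delBar, fderiv_fun_neg,
    neg_apply]
  ring

theorem deriv_inv {G : ℂ → M3} {t : ℂ} (h : C2M G t) (hd : ∀ᶠ x in 𝓝 t, (G x).det ≠ 0) :
    dM (fun x => (G x)⁻¹) t = - ((G t)⁻¹ * dM G t * (G t)⁻¹) ∧
    dbM (fun x => (G x)⁻¹) t = - ((G t)⁻¹ * dbM G t * (G t)⁻¹) := by
  have hu : IsUnit (G t).det := isUnit_iff_ne_zero.mpr hd.self_of_nhds
  have hinv := (h.inv hd.self_of_nhds).d1
  have hone : (fun x => G x * (G x)⁻¹) =ᶠ[𝓝 t] fun _ => (1 : M3) := by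
    filter_upwards [hd] with x hx
    exact Matrix.mul_nonsing_inv _ (isUnit_iff_ne_zero.mpr hx)
  have e1 := (dM_mul h.d1 hinv).symm.trans ((dM_congr hone).trans (dM_const 1 t))
  have e2 := (dbM_mul h.d1 hinv).symm.trans ((dbM_congr hone).trans (dbM_const 1 t))
  constructor
  · calc dM (fun x => (G x)⁻¹) t = (G t)⁻¹ * (G t * dM (fun x => (G x)⁻¹) t) := by
          rw [← mul_assoc, Matrix.nonsing_inv_mul _ hu, one_mul]
      _ = - ((G t)⁻¹ * dM G t * (G t)⁻¹) := by
          rw [eq_neg_of_add_eq_zero_right e1]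
          noncomm_ring
  · calc dbM (fun x => (G x)⁻¹) t = (G t)⁻¹ * (G t * dbM (fun x => (G x)⁻¹) t) := by
          rw [← mul_assoc, Matrix.nonsing_inv_mul _ hu, one_mul]
      _ = - ((G t)⁻¹ * dbM G t * (G t)⁻¹) := by
          rw [eq_neg_of_add_eq_zero_right e2]
          noncomm_ring

theorem dualCurv_inv {G : ℂ → M3} {t : ℂ} (h : C2M G t) (hd : (G t).det ≠ 0) :
    dualCurv (fun x => (G x)⁻¹) t =
      (G t)⁻¹ * (- dbM (dM G) t + dM G t * (G t)⁻¹ * dbM G t) * (G t)⁻¹ := by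
  have hu : IsUnit (G t).det := isUnit_iff_ne_zero.mpr hd
  have hev : ∀ᶠ x in 𝓝 t, ContDiffAt ℝ 2 (fun y => G y 0 0) x := h 0 0
  have hd' : ∀ᶠ x in 𝓝 t, (G x).det ≠ 0 := by
    have hc : ContinuousAt (fun x => (G x).det) t := by
      have hall : ∀ a b, ContinuousAt (fun x => G x a b) t :=
        fun a b => (h a b).self_of_nhds.continuousAt
      simp only [Matrix.det_fin_three]
      fun_prop
    exact hc.eventually_ne hd
  have hC2ev : ∀ᶠ x in 𝓝 t, C2M G x := by
    have : ∀ᶠ x in 𝓝 t, ∀ a b, ∀ᶠ y in 𝓝 x, ContDiffAt ℝ 2 (fun y => G y a b) y :=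
      Filter.eventually_all.mpr fun a => Filter.eventually_all.mpr fun b =>
        (h a b).eventually_nhds
    exact this
  have e1 : (fun x => dM (fun y => (G y)⁻¹) x) =ᶠ[𝓝 t]
      fun x => - ((G x)⁻¹ * dM G x * (G x)⁻¹) := by
    filter_upwards [hC2ev, hd'.eventually_nhds] with x hx hdx
    exact (deriv_inv hx hdx).1
  obtain ⟨di1, di2⟩ := deriv_inv h hd'
  have hi := (h.inv hd).d1
  rw [dualCurv_eq, dbM_congr e1, dbM_neg, dbM_mul (hi.mul h.d1_dM) hi, dbM_mul hi h.d1_dM,
    Matrix.nonsing_inv_nonsing_inv _ hu, di1, di2]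
  have c1 : (G t)⁻¹ * G t = 1 := Matrix.nonsing_inv_mul _ hu
  have c2 : ∀ Y : M3, (G t)⁻¹ * (G t * Y) = Y := fun Y => by rw [← mul_assoc, c1, one_mul]
  simp only [neg_mul, mul_neg, add_mul, mul_add, mul_assoc, c2]
  noncomm_ring

theorem dualCurv_dual {G : ℂ → M3} {t : ℂ} (h : C2M G t) (hd : (G t).det ≠ 0) :
    dualCurv (fun x => ((G x).transpose)⁻¹) t =
      ((G t).transpose)⁻¹ * (curv1 G t).transpose * ((G t).transpose)⁻¹ := by
  rw [dualCurv_inv h.transpose (by rwa [Matrix.det_transpose])]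
  congr 2
  simp only [curv1, Matrix.transpose_add, Matrix.transpose_neg, Matrix.transpose_mul,
    Matrix.transpose_nonsing_inv]
  rw [mul_assoc]
  rfl

/-- Entries holomorphic near `t`. -/
def HolM (D : ℂ → M3) (t : ℂ) : Prop :=
  ∀ a b, ∀ᶠ x in 𝓝 t, AnalyticAt ℂ (fun y => D y a b) x

theorem HolM.c2 {D : ℂ → M3} {t : ℂ} (h : HolM D t) : C2M D t := fun a b => by
  filter_upwards [h a b] with x hx
  exact hx.contDiffAt.restrict_scalars ℝ

theorem HolM.conjTranspose_c2 {D : ℂ → M3} {t : ℂ} (h : HolM D t) :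
    C2M (fun x => (D x).conjTranspose) t := fun a b => by
  filter_upwards [h.c2 b a] with x hx
  exact conjCLE.contDiff.contDiffAt.comp x hx

theorem HolM.dbM {D : ℂ → M3} {t : ℂ} (h : HolM D t) : dbM D t = 0 := by
  ext a b
  exact (HasWirt.of_hasDerivAt (h a b).self_of_nhds.differentiableAt.hasDerivAt).delBar

theorem HolM.dM_conjTranspose {D : ℂ → M3} {t : ℂ} (h : HolM D t) :
    dM (fun x => (D x).conjTranspose) t = 0 ∧
    Br.dbM (fun x => (D x).conjTranspose) t = (dM D t).conjTranspose := by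
  constructor <;> ext a b <;>
    have hw := (HasWirt.of_hasDerivAt (h b a).self_of_nhds.differentiableAt.hasDerivAt)
  · have := hw.conj.del
    simpa [dM, Matrix.conjTranspose_apply] using this
  · have h1 := hw.conj.delBar
    have h2 := hw.del
    simp only [Br.dbM, dM, Matrix.of_apply, Matrix.conjTranspose_apply]
    rw [show (fun x => star (D x b a)) = fun x => conj (D x b a) from rfl, h1, h2]
    rfl

theorem dbM_dM_hol {D : ℂ → M3} {t : ℂ} (h : HolM D t) : Br.dbM (dM D) t = 0 := by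
  ext a b
  have e : (fun x => dM D x a b) =ᶠ[𝓝 t] fun x => deriv (fun y => D y a b) x := by
    filter_upwards [h a b] with x hx
    exact (HasWirt.of_hasDerivAt hx.differentiableAt.hasDerivAt).del
  have h2 : HasWirt (fun x => dM D x a b) _ 0 t :=
    (HasWirt.of_hasDerivAt (h a b).self_of_nhds.deriv.differentiableAt.hasDerivAt).congr e
  exact h2.delBar

theorem dualCurv_congr' {D K : ℂ → M3} {t : ℂ} (hD : HolM D t) (hDd : (D t).det ≠ 0)
    (hK : C2M K t) (hKd : (K t).det ≠ 0) :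
    dualCurv (fun x => (D x).conjTranspose * K x * D x) t =
      (D t).conjTranspose * dualCurv K t * D t := by
  set A : ℂ → M3 := fun x => (D x).conjTranspose with hA
  have hA2 : C2M A t := hD.conjTranspose_c2
  have hev : ∀ᶠ x in 𝓝 t, HolM D x ∧ C2M K x := by
    have h1 : ∀ᶠ x in 𝓝 t, HolM D x := Filter.eventually_all.mpr fun a =>
      Filter.eventually_all.mpr fun b => (hD a b).eventually_nhds
    have h2 : ∀ᶠ x in 𝓝 t, C2M K x := Filter.eventually_all.mpr fun a =>
      Filter.eventually_all.mpr fun b => (hK a b).eventually_nhds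
    exact h1.and h2
  have e : (fun x => dM (fun y => A y * K y * D y) x) =ᶠ[𝓝 t]
      fun x => A x * dM K x * D x + A x * K x * dM D x := by
    filter_upwards [hev] with x hx
    rw [dM_mul (hx.1.conjTranspose_c2.d1.mul hx.2.d1) hx.1.c2.d1,
      dM_mul hx.1.conjTranspose_c2.d1 hx.2.d1, hx.1.dM_conjTranspose.1, zero_mul, zero_add]
  have a1 := hA2.d1
  have k1 := hK.d1
  have d1 := hD.c2.d1
  have dk := hK.d1_dM
  have dd := hD.c2.d1_dM
  obtain ⟨p1, p2⟩ := hD.dM_conjTranspose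
  rw [dualCurv_eq, dualCurv_eq, dbM_congr e,
    dbM_add ((a1.mul dk).mul d1) ((a1.mul k1).mul dd), dbM_mul (a1.mul dk) d1, dbM_mul a1 dk,
    dbM_mul (a1.mul k1) dd, dbM_mul a1 k1, dbM_dM_hol hD, hD.dbM,
    dbM_mul (a1.mul k1) d1, dbM_mul a1 k1, hD.dbM, p2,
    dM_mul (a1.mul k1) d1, dM_mul a1 k1, p1]
  simp only [mul_zero, add_zero, zero_mul, zero_add]
  rw [Matrix.mul_inv_rev, Matrix.mul_inv_rev]
  have uD : IsUnit (D t).det := isUnit_iff_ne_zero.mpr hDd
  have uK : IsUnit (K t).det := isUnit_iff_ne_zero.mpr hKd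
  have uA : IsUnit (A t).det := by
    rw [hA, Matrix.det_conjTranspose]; exact uD.star
  have c1 : ∀ Y : M3, D t * ((D t)⁻¹ * Y) = Y := fun Y => by
    rw [← mul_assoc, Matrix.mul_nonsing_inv _ uD, one_mul]
  have c2 : ∀ Y : M3, (A t)⁻¹ * (A t * Y) = Y := fun Y => by
    rw [← mul_assoc, Matrix.nonsing_inv_mul _ uA, one_mul]
  have c3 : ∀ Y : M3, K t * ((K t)⁻¹ * Y) = Y := fun Y => by
    rw [← mul_assoc, Matrix.mul_nonsing_inv _ uK, one_mul]
  have c4 : ∀ Y : M3, (K t)⁻¹ * (K t * Y) = Y := fun Y => by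
    rw [← mul_assoc, Matrix.nonsing_inv_mul _ uK, one_mul]
  simp only [hA] at c2 ⊢
  simp only [add_mul, mul_add, mul_sub, sub_mul, mul_assoc, c1, c2, c3, c4]
  noncomm_ring

theorem dualCurv_smul {K : ℂ → M3} {σ : ℂ → ℂ} {t b d : ℂ} (hK : C2M K t)
    (hKd : (K t).det ≠ 0) (hσ : ∀ᶠ x in 𝓝 t, DifferentiableAt ℝ σ x) (hσ0 : σ t ≠ 0)
    (h1 : HasWirt σ (del σ t) b t) (h2 : HasWirt (del σ) d (delBar (del σ) t) t) :
    dualCurv (fun x => σ x • K x) t =
      σ t • dualCurv K t + (delBar (del σ) t - b * del σ t / σ t) • K t := by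
  have e : (fun x => dM (fun y => σ y • K y) x) =ᶠ[𝓝 t]
      fun x => del σ x • K x + σ x • dM K x := by
    filter_upwards [hσ, hK.d1_ev] with x hx hKx
    ext p q
    simp only [dM, Matrix.of_apply, Matrix.add_apply, Matrix.smul_apply, smul_eq_mul]
    exact ((hasWirt_of_differentiableAt hx).mul (hasWirt_of_differentiableAt (hKx p q))).del
  have e2 : dbM (fun x => del σ x • K x + σ x • dM K x) t =
      delBar (del σ) t • K t + del σ t • dbM K t + b • dM K t + σ t • dbM (dM K) t := by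
    ext p q
    simp only [dbM, Matrix.of_apply, Matrix.add_apply, Matrix.smul_apply, smul_eq_mul]
    rw [((h2.mul (hasWirt_of_differentiableAt (hK.d1 p q))).add
      (h1.mul (hasWirt_of_differentiableAt (hK.d1_dM p q)))).delBar]
    simp only [dM, Matrix.of_apply]
    ring
  have e3 : dbM (fun x => σ x • K x) t = b • K t + σ t • dbM K t := by
    ext p q
    simp only [dbM, Matrix.of_apply, Matrix.add_apply, Matrix.smul_apply, smul_eq_mul]
    exact (h1.mul (hasWirt_of_differentiableAt (hK.d1 p q))).delBar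
  have e4 : dM (fun x => σ x • K x) t = del σ t • K t + σ t • dM K t := e.self_of_nhds
  have uK : IsUnit (K t).det := isUnit_iff_ne_zero.mpr hKd
  have einv : (σ t • K t)⁻¹ = (σ t)⁻¹ • (K t)⁻¹ := by
    apply Matrix.inv_eq_right_inv
    rw [Matrix.smul_mul, Matrix.mul_smul, smul_smul, mul_inv_cancel₀ hσ0, one_smul,
      Matrix.mul_nonsing_inv _ uK]
  rw [dualCurv_eq, dualCurv_eq, dbM_congr e, e2, e3, e4, einv]
  simp only [Matrix.smul_mul, Matrix.mul_smul, add_mul, mul_add, mul_assoc, smul_smul, smul_add,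
    Matrix.mul_nonsing_inv _ uK, Matrix.nonsing_inv_mul _ uK, one_mul, mul_one]
  ext p q
  simp only [Matrix.add_apply, Matrix.sub_apply, Matrix.smul_apply, smul_eq_mul]
  field_simp
  ring

/-! ### The weight -/

/-- `c (1 + |t^m|²)^(-1/m)`. -/
def sigma (m : ℕ) (c : ℝ) (t : ℂ) : ℂ :=
  ((c * (1 + ‖t‖ ^ (2 * m)) ^ (-(1 / (m : ℝ))) : ℝ) : ℂ)

theorem sigma_spec (m : ℕ) (hm : 1 ≤ m) (c : ℝ) (hc : 0 < c) (t : ℂ) :
    DifferentiableAt ℝ (sigma m c) t ∧ sigma m c t ≠ 0 ∧
    HasWirt (sigma m c) (del (sigma m c) t) (delBar (sigma m c) t) t ∧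
    (∃ d, HasWirt (del (sigma m c)) d (delBar (del (sigma m c)) t) t) ∧
    delBar (del (sigma m c)) t - delBar (sigma m c) t * del (sigma m c) t / sigma m c t =
      - ((An.om m t / m : ℝ) : ℂ) * sigma m c t := by
  set e : ℂ := ((-(1 / (m : ℝ)) : ℝ) : ℂ) with he
  set q : ℂ → ℂ := fun x => 1 + x ^ m * conj (x ^ m) with hq
  set f : ℂ → ℂ := fun x => (m : ℂ) * x ^ (m - 1) with hf
  have hqR : ∀ x, q x = ((1 + ‖x‖ ^ (2 * m) : ℝ) : ℂ) := by
    intro x
    simp only [hq, Complex.mul_conj']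
    push_cast
    rw [norm_pow]
    push_cast
    ring
  have hqpos : ∀ x : ℂ, (0 : ℝ) < 1 + ‖x‖ ^ (2 * m) := fun x => by positivity
  have hslit : ∀ x, q x ∈ Complex.slitPlane := fun x => by
    rw [hqR x, Complex.ofReal_mem_slitPlane]; exact hqpos x
  have hq0 : ∀ x, q x ≠ 0 := fun x => Complex.slitPlane_ne_zero (hslit x)
  have hpow : ∀ x, HasDerivAt (fun y : ℂ => y ^ m) (f x) x := fun x => hasDerivAt_pow m x
  have hwq : ∀ x, HasWirt q (f x * conj (x ^ m)) (x ^ m * conj (f x)) x := by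
    intro x
    have h0 := HasWirt.of_hasDerivAt (hpow x)
    have := (HasWirt.const 1 x).add (h0.mul h0.conj)
    convert this using 1 <;> simp
  set S : ℂ → ℂ := fun x => (c : ℂ) * Complex.exp (e * Complex.log (q x)) with hS
  have hσS : sigma m c = S := by
    funext x
    simp only [sigma, hS, hqR x, he]
    rw [← Complex.ofReal_log (hqpos x).le, ← Complex.ofReal_mul, ← Complex.ofReal_exp,
      ← Complex.ofReal_mul, Real.rpow_def_of_pos (hqpos x), mul_comm (Real.log _)]
  have hwS : ∀ x, HasWirt S (S x * e * (f x * conj (x ^ m)) / q x)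
      (S x * e * (x ^ m * conj (f x)) / q x) x := by
    intro x
    have h1 : HasDerivAt (fun w : ℂ => (c : ℂ) * Complex.exp (e * Complex.log w))
        ((c : ℂ) * (Complex.exp (e * Complex.log (q x)) * (e * (q x)⁻¹))) (q x) :=
      (((Complex.hasDerivAt_log (hslit x)).const_mul e).cexp).const_mul _
    convert HasWirt.comp_hol h1 (hwq x) using 1 <;> simp only [hS] <;> ring
  rw [hσS]
  have hdel : del S = fun x => S x * e * (f x * conj (x ^ m)) / q x := funext fun x => (hwS x).del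
  have hS0 : S t ≠ 0 :=
    mul_ne_zero (Complex.ofReal_ne_zero.mpr hc.ne') (Complex.exp_ne_zero _)
  have hff : HasDerivAt f (deriv f t) t := (DifferentiableAt.hasDerivAt (by fun_prop))
  have hwdel : HasWirt (fun x => S x * e * (f x * conj (x ^ m)) * (q x)⁻¹)
      _ _ t := (((hwS t).mul (HasWirt.const e t)).mul
    ((HasWirt.of_hasDerivAt hff).mul (HasWirt.of_hasDerivAt (hpow t)).conj)).mul
      (HasWirt.comp_hol (hasDerivAt_inv (hq0 t)) (hwq t))
  have hdel' : del S = fun x => S x * e * (f x * conj (x ^ m)) * (q x)⁻¹ := by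
    rw [hdel]; funext x; rw [div_eq_mul_inv]
  refine ⟨(hwS t).differentiableAt, hS0, ?_, ?_, ?_⟩
  · rw [(hwS t).del, (hwS t).delBar]; exact hwS t
  · rw [hdel', hwdel.delBar]; exact ⟨_, hwdel⟩
  · rw [(hwS t).delBar, hdel', hwdel.delBar]
    have hm0 : (m : ℂ) ≠ 0 := Nat.cast_ne_zero.mpr (by omega)
    have he' : e = -(1 / (m : ℂ)) := by simp [he]
    have hom : ((An.om m t / m : ℝ) : ℂ) = f t * conj (f t) / q t ^ 2 / m := by
      simp only [An.om, hf, hqR t, map_mul, map_natCast, map_pow]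
      have hn : t ^ (m - 1) * conj t ^ (m - 1) = (((‖t‖ ^ (m - 1)) ^ 2 : ℝ) : ℂ) := by
        rw [← mul_pow, Complex.mul_conj']
        push_cast
        ring
      push_cast at hn ⊢
      linear_combination (-(m : ℂ) ^ 2 / (1 + (‖t‖ : ℂ) ^ (2 * m)) ^ 2 / m) * hn
    rw [hom]
    have := hq0 t
    simp only [map_zero, zero_mul, mul_zero, add_zero, zero_add]
    field_simp
    rw [he']
    simp only [hq]
    field_simp
    ring

/-! ### Along a curve -/

theorem linear_expand (g : Cn 2 → ℂ) (p ξ : Cn 2) :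
    wirt ξ g p = ξ 0 * wirt (EuclideanSpace.single 0 1) g p +
      ξ 1 * wirt (EuclideanSpace.single 1 1) g p := by
  set L := fderiv ℝ g p
  set e0 : Cn 2 := EuclideanSpace.single 0 1
  set e1 : Cn 2 := EuclideanSpace.single 1 1
  have hξ : ξ = (ξ 0).re • e0 + (ξ 0).im • (I • e0) + (ξ 1).re • e1 + (ξ 1).im • (I • e1) := by
    ext k; fin_cases k <;> simp [e0, e1, Complex.re_add_im]
  have hIξ : I • ξ = (ξ 0).re • (I • e0) - (ξ 0).im • e0 + (ξ 1).re • (I • e1) -
      (ξ 1).im • e1 := by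
    ext k; fin_cases k <;> simp [e0, e1] <;> apply Complex.ext <;> simp
  have hL : L ξ = (ξ 0).re * L e0 + (ξ 0).im * L (I • e0) + (ξ 1).re * L e1 +
      (ξ 1).im * L (I • e1) := by
    conv_lhs => rw [hξ]
    simp only [map_add, map_smul, real_smul]
  have hLI : L (I • ξ) = (ξ 0).re * L (I • e0) - (ξ 0).im * L e0 + (ξ 1).re * L (I • e1) -
      (ξ 1).im * L e1 := by
    rw [hIξ]
    simp only [map_add, map_sub, map_smul, real_smul]
  show (1 / 2 : ℂ) * (L ξ - I * L (I • ξ)) = _ * ((1 / 2 : ℂ) * (L e0 - I * L (I • e0))) +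
    _ * ((1 / 2 : ℂ) * (L e1 - I * L (I • e1)))
  rw [hL, hLI]
  conv_rhs => rw [← Complex.re_add_im (ξ 0), ← Complex.re_add_im (ξ 1)]
  linear_combination (1 / 2 * (((ξ 0).im : ℂ) * L (I • e0) + ((ξ 1).im : ℂ) * L (I • e1))) *
    I_mul_I

theorem hasWirt_comp_curve {g : Cn 2 → ℂ} {γ : ℂ → Cn 2} {t : ℂ} {γ' : Cn 2}
    (hg : DifferentiableAt ℝ g (γ t)) (hγ : HasDerivAt γ γ' t) :
    HasWirt (fun x => g (γ x)) (wirt γ' g (γ t)) (wirtBar γ' g (γ t)) t := by
  have h := hg.hasFDerivAt.comp t (hγ.hasFDerivAt.restrictScalars ℝ)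
  have e := hasWirt_of_differentiableAt h.differentiableAt
  have h1 : fderiv ℝ (fun x => g (γ x)) t 1 = fderiv ℝ g (γ t) γ' := by
    rw [show fderiv ℝ (fun x => g (γ x)) t = _ from h.fderiv]; simp
  have hI : fderiv ℝ (fun x => g (γ x)) t I = fderiv ℝ g (γ t) (I • γ') := by
    rw [show fderiv ℝ (fun x => g (γ x)) t = _ from h.fderiv]; simp
  convert e using 1 <;> simp only [An.del, An.delBar, wirt, wirtBar, Function.comp_def, h1, hI]

theorem curv1_comp {G : Cn 2 → M3} {γ : ℂ → Cn 2} {t : ℂ}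
    (hG : ∀ a b, ContDiffAt ℝ 2 (fun q => G q a b) (γ t)) (hγ : AnalyticAt ℂ γ t) :
    curv1 (fun x => G (γ x)) t = curvatureForm G (γ t) (deriv γ t) := by
  set ξ := deriv γ t
  have hd : ∀ a b, DifferentiableAt ℝ (fun q => G q a b) (γ t) :=
    fun a b => (hG a b).differentiableAt two_ne_zero
  have e1 : dM (fun x => G (γ x)) t = Matrix.of fun a b => wirt ξ (fun q => G q a b) (γ t) := by
    ext a b; exact (hasWirt_comp_curve (hd a b) hγ.differentiableAt.hasDerivAt).del
  have e2 : dbM (fun x => G (γ x)) t = Matrix.of fun a b => wirtBar ξ (fun q => G q a b) (γ t) := by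
    ext a b; exact (hasWirt_comp_curve (hd a b) hγ.differentiableAt.hasDerivAt).delBar
  have hev : ∀ᶠ x in 𝓝 t, AnalyticAt ℂ γ x ∧ ∀ a b, ContDiffAt ℝ 2 (fun q => G q a b) (γ x) := by
    refine hγ.eventually_analyticAt.and ?_
    refine hγ.continuousAt.eventually (p := fun y => ∀ a b, ContDiffAt ℝ 2 (fun q => G q a b) y) ?_
    exact Filter.eventually_all.mpr fun a => Filter.eventually_all.mpr fun b =>
      (hG a b).eventually (by decide)
  have e3 : dbM (dM fun x => G (γ x)) t =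
      Matrix.of fun a b => wirtBar ξ (fun q => wirt ξ (fun q' => G q' a b) q) (γ t) := by
    ext a b
    set g : Cn 2 → ℂ := fun q => G q a b
    set W0 : Cn 2 → ℂ := fun q => wirt (EuclideanSpace.single 0 1) g q
    set W1 : Cn 2 → ℂ := fun q => wirt (EuclideanSpace.single 1 1) g q
    have hev2 : (fun x => dM (fun y => G (γ y)) x a b) =ᶠ[𝓝 t]
        fun x => deriv γ x 0 * W0 (γ x) + deriv γ x 1 * W1 (γ x) := by
      filter_upwards [hev] with x hx
      rw [← linear_expand]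
      exact (hasWirt_comp_curve ((hx.2 a b).differentiableAt two_ne_zero)
        hx.1.differentiableAt.hasDerivAt).del
    have hf1 : ContDiffAt ℝ 1 (fderiv ℝ g) (γ t) := (hG a b).fderiv_right (by norm_num)
    have dd := hf1.differentiableAt one_ne_zero
    have hW : ∀ e, DifferentiableAt ℝ (fun q => wirt e g q) (γ t) := fun e =>
      ((dd.clm_apply (differentiableAt_const e)).sub
        ((dd.clm_apply (differentiableAt_const (I • e))).const_mul I)).const_mul _
    have hγ' : ∀ k, DifferentiableAt ℂ (fun x => deriv γ x k) t := fun k =>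
      ((EuclideanSpace.proj k : Cn 2 →L[ℂ] ℂ).differentiableAt.comp t hγ.deriv.differentiableAt)
    have hw := (((HasWirt.of_hasDerivAt (hγ' 0).hasDerivAt).mul
      (hasWirt_comp_curve (hW _) hγ.differentiableAt.hasDerivAt)).add
      ((HasWirt.of_hasDerivAt (hγ' 1).hasDerivAt).mul
      (hasWirt_comp_curve (hW _) hγ.differentiableAt.hasDerivAt))).congr hev2
    have : dbM (dM fun x => G (γ x)) t a b = ξ 0 * wirtBar ξ W0 (γ t) + ξ 1 * wirtBar ξ W1 (γ t) := by
      refine hw.delBar.trans ?_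
      ring
    rw [this, Matrix.of_apply]
    have hfun : (fun q => wirt ξ g q) = fun q => ξ 0 * W0 q + ξ 1 * W1 q :=
      funext fun q => linear_expand g q ξ
    show _ = wirtBar ξ (fun q => wirt ξ g q) (γ t)
    rw [hfun]
    unfold wirtBar
    rw [fderiv_fun_add ((hW _).const_mul _) ((hW _).const_mul _), fderiv_const_mul (hW _),
      fderiv_const_mul (hW _)]
    simp only [ContinuousLinearMap.add_apply, ContinuousLinearMap.smul_apply, smul_eq_mul]
    ring
  rw [curv1, e1, e2, e3]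
  rfl

end Vale.Agent.P296.Br
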