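import Mathlib
import Vale.Agent.P296.Bundle.Core
import Vale.Agent.P296.Bridge.Curvature

/-! The twisted dual metric on the affine sheets: smoothness and curvature. -/

open Set
open scoped Manifold ContDiff Topology ComplexOrder Matrix
open Complex

noncomputable section

namespace Vale.Agent.P296.Br

variable {m : ℕ}

/-- The point of `X m` with affine coordinates `(z, s, u, v)`. -/
def affRep (z s u v : ℂ) (h : An.OnCurve m s u v) : Rep m where
  z := ![1, z]
  s := ![1, s]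
  u := u
  v := v
  hz e := one_ne_zero (congrFun e 0)
  hs e := one_ne_zero (congrFun e 0)
  hu := by rw [h.1]; simp [An.pp]
  hv := by rw [h.2]; simp [An.qq]

/-- `diag (χ, χ, 1)`. -/
def Dm (c : ℂ) : M3 := Matrix.diagonal ![c, c, 1]

theorem Dm_det {c : ℂ} (h : c ≠ 0) : (Dm c).det ≠ 0 := by
  simp [Dm, Matrix.det_diagonal, Fin.prod_univ_three, h]

theorem Dm_mul (a b : ℂ) : Dm a * Dm b = Dm (a * b) := by
  ext i j; fin_cases i <;> fin_cases j <;> simp [Dm]

/-- The weight of the twist. -/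
def wt (m : ℕ) (z s : ℂ) : ℂ := sigma m 1 z * sigma m 1 s

variable (H : Idx → X m → M3)

/-- The metric in the index `(0, 0, c)`. -/
def Kloc (p : Rep m) (c : Fin 2) : M3 :=
  (Dm (p.chi c))ᴴ * ((H (0, 0, c) p.pt)ᵀ)⁻¹ * Dm (p.chi c)

def cOf (u : ℂ) : Fin 2 := if u ≠ 0 then 0 else 1

open Classical in
/-- The metric field of the analytic core. -/
def Kfun (z s u v : ℂ) : M3 :=
  if h : An.OnCurve m s u v then wt m z s • Kloc H (affRep z s u v h) (cOf u) else 0

theorem not_both_zero {z s u v : ℂ} (h : An.OnCurve m s u v) : u ≠ 0 ∨ v ≠ 0 := by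
  by_contra hc
  push Not at hc
  obtain ⟨h1, h2⟩ := h
  rw [hc.1] at h1; rw [hc.2] at h2
  simp only [An.pp, An.qq] at h1 h2
  have : (2 : ℂ) = 0 := by linear_combination h1 - h2
  norm_num at this

theorem inBase_aff {z s u v : ℂ} (h : An.OnCurve m s u v) (c : Fin 2)
    (hc : (affRep z s u v h).chi c ≠ 0) : (affRep z s u v h).InBase (0, 0, c) :=
  ⟨by simp [affRep], by simp [affRep], hc⟩

theorem chi_cOf {z s u v : ℂ} (h : An.OnCurve m s u v) :
    (affRep z s u v h).chi (cOf u) ≠ 0 := by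
  unfold cOf Rep.chi
  by_cases hu : u ≠ 0
  · simp [hu, affRep]
  · simp only [if_neg hu, Fin.isValue, one_ne_zero, if_false]
    exact (not_both_zero (z := z) h).resolve_left hu

theorem matrix_ext_of_form {A B : M3} (h : ∀ v w : Fin 3 → ℂ, star v ⬝ᵥ A *ᵥ w = star v ⬝ᵥ B *ᵥ w) :
    A = B := by
  ext a b
  have := h (Pi.single a 1) (Pi.single b 1)
  simpa [dotProduct, Matrix.mulVec, Pi.single_apply, apply_ite (starRingEnd ℂ)] using this

section Geometry

variable [ChartedSpace (Cn 2) (X m)] {hm : 1 ≤ m} {hg : GeomSpec m}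
  (hH : IsHermitianMetric 2 (bundle hm hg) H)

include hH

theorem Kloc_indep {z s u v : ℂ} (h : An.OnCurve m s u v) (c c' : Fin 2)
    (hc : (affRep z s u v h).chi c ≠ 0) (hc' : (affRep z s u v h).chi c' ≠ 0) :
    Kloc H (affRep z s u v h) c = Kloc H (affRep z s u v h) c' := by
  set p := affRep z s u v h with hp
  have hi := inBase_aff h c hc
  have hj := inBase_aff h c' hc'
  set μ := p.chi c / p.chi c' with hμ
  have hq : ∀ c, p.qfac (0, 0, c) = p.chi c := fun c => by simp [Rep.qfac, hp, affRep]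
  have hk : ∀ c, p.kfac (0, 0, c) = 1 := fun c => by simp [Rep.kfac, hp, affRep]
  have ht : transX (0, 0, c) (0, 0, c') p.pt = Dm μ := by
    rw [transX_eq hm rfl]
    unfold Rep.trans
    rw [hq, hq, hk, hk]
    ext i j
    fin_cases i <;> fin_cases j <;> simp [Dm, Rep.dfac, hμ]
  have hcomp : H (0, 0, c) p.pt = (Dm μ)ᴴ * H (0, 0, c') p.pt * Dm μ := by
    refine matrix_ext_of_form fun a b => ?_
    have := hH.2.1 (0, 0, c) (0, 0, c') p.pt ⟨(inBase_iff rfl _).mp hi, (inBase_iff rfl _).mp hj⟩ a b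
    rw [bundle_coordChange, bundle_coordChange, ht] at this
    rw [← this, Matrix.star_mulVec, ← Matrix.dotProduct_mulVec, Matrix.mulVec_mulVec,
      Matrix.mulVec_mulVec]
  have hμ0 : μ ≠ 0 := div_ne_zero hc hc'
  have hsymm : (Dm μ)ᵀ = Dm μ := Matrix.diagonal_transpose _
  have hsymm' : ((Dm μ)ᴴ)ᵀ = (Dm μ)ᴴ := by
    simp [Dm, Matrix.diagonal_conjTranspose]
  have hD : Dm (p.chi c) = Dm μ * Dm (p.chi c') := by
    rw [Dm_mul, hμ, div_mul_cancel₀ _ hc']
  have u1 : IsUnit (Dm μ).det := isUnit_iff_ne_zero.mpr (Dm_det hμ0)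
  have u2 : IsUnit ((Dm μ)ᴴ).det := by rw [Matrix.det_conjTranspose]; exact u1.star
  unfold Kloc
  rw [hcomp, hD, Matrix.transpose_mul, Matrix.transpose_mul, hsymm, hsymm', Matrix.conjTranspose_mul,
    Matrix.mul_inv_rev, Matrix.mul_inv_rev]
  simp only [mul_assoc]
  rw [← mul_assoc (Dm μ)ᴴ, Matrix.mul_nonsing_inv _ u2, one_mul, ← mul_assoc (Dm μ)⁻¹,
    Matrix.nonsing_inv_mul _ u1, one_mul]

theorem Kfun_eq {z s u v : ℂ} (h : An.OnCurve m s u v) (c : Fin 2)
    (hc : (affRep z s u v h).chi c ≠ 0) :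
    Kfun H z s u v = wt m z s • Kloc H (affRep z s u v h) c := by
  rw [Kfun, dif_pos h, Kloc_indep H hH h _ c (chi_cOf h) hc]

theorem Kloc_posDef {z s u v : ℂ} (h : An.OnCurve m s u v) (c : Fin 2)
    (hc : (affRep z s u v h).chi c ≠ 0) : (Kloc H (affRep z s u v h) c).PosDef := by
  refine (hH.1 _ _ ((inBase_iff rfl _).mp (inBase_aff h c hc))).transpose.inv.conjTranspose_mul_mul_same ?_
  exact Matrix.mulVec_injective_iff_isUnit.mpr
    ((Matrix.isUnit_iff_isUnit_det _).mpr (isUnit_iff_ne_zero.mpr (Dm_det hc)))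

theorem Kfun_posDef {z s u v : ℂ} (h : An.OnCurve m s u v) : (Kfun H z s u v).PosDef := by
  rw [Kfun_eq H hH h _ (chi_cOf h)]
  refine (Kloc_posDef H hH h _ (chi_cOf h)).smul ?_
  rw [wt, sigma, sigma, ← Complex.ofReal_mul]
  exact Complex.zero_lt_real.mpr (by positivity)

theorem Kfun_neg {z s u v : ℂ} (h : An.OnCurve m s u v) :
    Kfun H z s (-u) (-v) =
      Matrix.diagonal ![-1, -1, 1] * Kfun H z s u v * Matrix.diagonal ![-1, -1, 1] := by
  have h' : An.OnCurve m s (-u) (-v) := ⟨by rw [neg_sq]; exact h.1, by rw [neg_sq]; exact h.2⟩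
  have hpt : (affRep z s (-u) (-v) h').pt = (affRep z s u v h).pt :=
    Quotient.sound (s := repSetoid m)
      ⟨1, 1, -1, one_ne_zero, one_ne_zero, by norm_num, by simp [affRep], by simp [affRep],
        by simp [affRep], by simp [affRep]⟩
  have hc : cOf (-u) = cOf u := by simp [cOf]
  have hchi : ∀ c, (affRep z s (-u) (-v) h').chi c = -(affRep z s u v h).chi c := fun c => by
    simp only [Rep.chi, affRep]; split <;> rfl
  have hD : ∀ x : ℂ, Dm (-x) = Dm x * Matrix.diagonal ![-1, -1, 1] := fun x => by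
    rw [Dm, Dm, Matrix.diagonal_mul_diagonal]
    congr 1; funext i; fin_cases i <;> simp
  have hS : (Matrix.diagonal ![-1, -1, 1] : M3)ᴴ = Matrix.diagonal ![-1, -1, 1] := by
    rw [Matrix.diagonal_conjTranspose]; congr 1; funext i; fin_cases i <;> simp
  rw [Kfun, Kfun, dif_pos h, dif_pos h', hc, Kloc, Kloc, hpt, hchi, hD, Matrix.conjTranspose_mul, hS]
  simp only [Matrix.mul_smul, Matrix.smul_mul, mul_assoc]

/-- Chart data around a point of a sheet. -/
theorem sheet_chart (W : Set ℂ) (u v : ℂ → ℂ) (hW : IsOpen W) (hu : DifferentiableOn ℂ u W)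
    (hv : DifferentiableOn ℂ v W) (hon : ∀ s ∈ W, An.OnCurve m s (u s) (v s))
    (z0 s0 : ℂ) (hs0 : s0 ∈ W) :
    ∃ (c : Fin 2) (ch : ℂ → ℂ) (G : Cn 2 → M3) (f : ℂ × ℂ → Cn 2),
      AnalyticAt ℂ ch s0 ∧ ch s0 ≠ 0 ∧ ContDiffAt ℂ ω f (z0, s0) ∧
      (∀ a b, ContDiffAt ℝ ∞ (fun q => G q a b) (f (z0, s0))) ∧
      (G (f (z0, s0))).PosDef ∧
      (∀ᶠ p in 𝓝 (z0, s0), Kfun H p.1 p.2 (u p.2) (v p.2) =
        wt m p.1 p.2 • ((Dm (ch p.2))ᴴ * ((G (f p))ᵀ)⁻¹ * Dm (ch p.2))) ∧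
      (IsGriffithsPositive 2 (bundle hm hg) H → ∀ (ξ : Cn 2) (w : Fin 3 → ℂ),
        0 ≤ (star w ⬝ᵥ curvatureForm G (f (z0, s0)) ξ *ᵥ w).re) := by
  classical
  have hdef : An.OnCurve m 0 I 1 := by
    constructor <;> simp [An.pp, An.qq, show 6 * m ≠ 0 by omega]
  let L : ℂ → ℂ → Rep m := fun z s => if h : An.OnCurve m s (u s) (v s) then affRep z s (u s) (v s) h
    else affRep z 0 I 1 hdef
  have hL : ∀ z, ∀ s, (h : An.OnCurve m s (u s) (v s)) → L z s = affRep z s (u s) (v s) h :=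
    fun z s h => dif_pos h
  have hι := hg.affine W u v hW hu hv L (fun z s hs => by rw [hL z s (hon s hs)]; rfl)
  set ι : ℂ × ℂ → X m := fun p => (L p.1 p.2).pt with hιdef
  have hUo : IsOpen ((univ : Set ℂ) ×ˢ W) := isOpen_univ.prod hW
  have hι0 : ContMDiffAt 𝓘(ℂ, ℂ × ℂ) 𝓘(ℂ, Cn 2) ω ι (z0, s0) :=
    hι.contMDiffAt (hUo.mem_nhds ⟨trivial, hs0⟩)
  set x0 := ι (z0, s0)
  have hx0 : x0 = (affRep z0 s0 (u s0) (v s0) (hon s0 hs0)).pt := by
    show (L z0 s0).pt = _; rw [hL _ _ (hon s0 hs0)]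
  set c := cOf (u s0)
  set ch : ℂ → ℂ := fun s => if c = 0 then u s else v s with hch
  set φ := extChartAt 𝓘(ℂ, Cn 2) x0
  set f : ℂ × ℂ → Cn 2 := fun p => φ (ι p) with hf
  set i : Idx := (0, 0, c)
  set G : Cn 2 → M3 := fun q => H i (φ.symm q) with hG
  have hch0 : ch s0 ≠ 0 := chi_cOf (z := z0) (hon s0 hs0)
  have hcha : AnalyticAt ℂ ch s0 := by
    have : DifferentiableOn ℂ ch W := by
      by_cases hc : c = 0 <;> simp only [hch, hc, if_true, if_false] <;> assumption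
    exact this.analyticAt (hW.mem_nhds hs0)
  have hfa : ContDiffAt ℂ ω f (z0, s0) := by
    have h1 := (contMDiffAt_iff.mp hι0).2
    simp only [extChartAt_model_space_eq_id, PartialEquiv.refl_symm, PartialEquiv.refl_coe,
      Function.comp_def, id_eq, modelWithCornersSelf_coe, range_id] at h1
    exact contDiffWithinAt_univ.mp h1
  have hxi : x0 ∈ (bundle hm hg).baseSet i := by
    rw [hx0]; exact (inBase_iff rfl i).mp (inBase_aff _ c (chi_cOf (z := z0) (hon s0 hs0)))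
  have hfx : f (z0, s0) = φ x0 := rfl
  have hGs : ∀ a b, ContDiffAt ℝ ∞ (fun q => G q a b) (f (z0, s0)) := by
    intro a b
    have h1 : ContMDiffAt 𝓘(ℝ, Cn 2) 𝓘(ℝ, ℂ) ∞ (fun x => H i x a b) x0 :=
      (hH.2.2 i a b).contMDiffAt (((bundle hm hg).isOpen_baseSet i).mem_nhds hxi)
    have h2 := (contMDiffAt_iff.mp h1).2
    simp only [extChartAt_model_space_eq_id, PartialEquiv.refl_coe, Function.comp_def, id_eq,
      modelWithCornersSelf_coe, range_id] at h2
    exact contDiffWithinAt_univ.mp h2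
  have hsrc : x0 ∈ φ.source := mem_extChartAt_source x0
  refine ⟨c, ch, G, f, hcha, hch0, hfa, hGs, ?_, ?_, ?_⟩
  · rw [hfx, hG]; simp only [φ.left_inv hsrc]; exact hH.1 i x0 hxi
  · have h1 : ∀ᶠ p in 𝓝 (z0, s0), ι p ∈ φ.source :=
      hι0.continuousAt.preimage_mem_nhds (extChartAt_source_mem_nhds x0)
    have h2 : ∀ᶠ p in 𝓝 (z0, s0), p.2 ∈ W ∧ ch p.2 ≠ 0 := by
      have : ∀ᶠ s in 𝓝 s0, s ∈ W ∧ ch s ≠ 0 :=
        (hW.eventually_mem hs0).and (hcha.continuousAt.eventually_ne hch0)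
      exact (continuousAt_snd (p := (z0, s0))).eventually this
    filter_upwards [h1, h2] with p hp hp2
    have hon' := hon p.2 hp2.1
    rw [Kfun_eq H hH hon' c hp2.2]
    simp only [hG, hf, φ.left_inv hp]
    congr 1
    show Kloc H _ c = _
    unfold Kloc
    have e1 : (affRep p.1 p.2 (u p.2) (v p.2) hon').pt = ι p := by
      show _ = (L p.1 p.2).pt; rw [hL _ _ hon']
    rw [e1]
    rfl
  · intro hpos ξ w
    rcases eq_or_ne ξ 0 with rfl | hξ
    · have hz : curvatureForm G (f (z0, s0)) 0 = 0 := by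
        ext a b
        simp [curvatureForm, wirt, wirtBar, Matrix.mul_apply]
      simp [hz]
    rcases eq_or_ne w 0 with rfl | hw
    · simp
    exact (hpos i x0 hxi ξ hξ w hw).le

end Geometry

end Vale.Agent.P296.Br
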