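import Mathlib
import Vale.Agent.P296.Bridge.Sheet

/-! Smoothness and curvature bounds of the field `Kfun`. -/

open Set
open scoped Manifold ContDiff Topology ComplexOrder Matrix
open Complex ComplexConjugate

noncomputable section

namespace Vale.Agent.P296.Br

open An (dualCurv quad)

variable {m : ℕ}

theorem contDiffAt_sigma (hm : 1 ≤ m) (c : ℝ) (t : ℂ) : ContDiffAt ℝ ∞ (sigma m c) t := by
  have h1 : ContDiffAt ℝ ∞ (fun x : ℂ => (1 + ‖x‖ ^ (2 * m) : ℝ)) t := by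
    have : (fun x : ℂ => (1 + ‖x‖ ^ (2 * m) : ℝ)) = fun x : ℂ => 1 + (Complex.normSq x) ^ m := by
      funext x; rw [Complex.normSq_eq_norm_sq, ← pow_mul]
    rw [this]
    simp only [Complex.normSq_apply]
    exact contDiffAt_const.add
      (((Complex.reCLM.contDiff.contDiffAt.mul Complex.reCLM.contDiff.contDiffAt).add
        (Complex.imCLM.contDiff.contDiffAt.mul Complex.imCLM.contDiff.contDiffAt)).pow m)
  exact Complex.ofRealCLM.contDiff.contDiffAt.comp t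
    (contDiffAt_const.mul (h1.rpow_const_of_ne (by positivity)))

theorem contDiffAt_inv_entries {E : Type*} [NormedAddCommGroup E] [NormedSpace ℝ E] {G : E → M3}
    {p : E} (h : ∀ a b, ContDiffAt ℝ ∞ (fun q => G q a b) p) (hd : (G p).det ≠ 0) (a b : Fin 3) :
    ContDiffAt ℝ ∞ (fun q => (G q)⁻¹ a b) p := by
  have hdet : ContDiffAt ℝ ∞ (fun y => (G y).det) p := by
    simp only [Matrix.det_fin_three]
    fun_prop
  simp only [Matrix.inv_def, Matrix.smul_apply, smul_eq_mul, Ring.inverse_eq_inv']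
  refine (hdet.inv hd).mul ?_
  simp only [Matrix.adjugate_fin_three]
  fin_cases a <;> fin_cases b <;> simp <;> fun_prop

theorem c2m_of_smooth {G : ℂ → M3} {t : ℂ} (h : ∀ a b, ContDiffAt ℝ ∞ (fun x => G x a b) t) :
    C2M G t := fun a b => ((h a b).of_le (WithTop.coe_le_coe.mpr le_top)).eventually (by decide)

/-- The curvature inequality along an analytic curve in a chart. -/
theorem curve_ineq (hm : 1 ≤ m) {G : Cn 2 → M3} {γ : ℂ → Cn 2} {ch : ℂ → ℂ} {t : ℂ} {cst : ℝ}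
    (hc : 0 < cst) {F : ℂ → M3}
    (hG : ∀ a b, ContDiffAt ℝ ∞ (fun q => G q a b) (γ t)) (hpd : (G (γ t)).PosDef)
    (hγ : AnalyticAt ℂ γ t) (hch : AnalyticAt ℂ ch t) (hch0 : ch t ≠ 0)
    (hF : F =ᶠ[𝓝 t] fun x => sigma m cst x • ((Dm (ch x))ᴴ * ((G (γ x))ᵀ)⁻¹ * Dm (ch x)))
    (hpos : ∀ ξ w, 0 ≤ (star w ⬝ᵥ curvatureForm G (γ t) ξ *ᵥ w).re) (φ : Fin 3 → ℂ) :
    0 ≤ quad (dualCurv F t) φ + An.om m t / m * quad (F t) φ := by
  set G0 : ℂ → M3 := fun x => G (γ x)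
  have hγR : ContDiffAt ℝ ∞ γ t := (hγ.contDiffAt.restrict_scalars ℝ)
  have hG0 : C2M G0 t := c2m_of_smooth fun a b => (hG a b).comp t hγR
  have hd0 : (G0 t).det ≠ 0 := (Matrix.isUnit_iff_isUnit_det _).mp hpd.isUnit |>.ne_zero
  have hD : HolM (fun x => Dm (ch x)) t := by
    intro a b
    filter_upwards [hch.eventually_analyticAt] with x hx
    fin_cases a <;> fin_cases b <;> simp [Dm] <;>
      first | exact hx | exact analyticAt_const
  have hDd : (Dm (ch t)).det ≠ 0 := Dm_det hch0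
  set Gi : ℂ → M3 := fun x => ((G0 x)ᵀ)⁻¹
  have hdT : ((G0 t)ᵀ).det ≠ 0 := by rwa [Matrix.det_transpose]
  have hGi : C2M Gi t := hG0.transpose.inv hdT
  have hGid : (Gi t).det ≠ 0 := by
    rw [Matrix.det_nonsing_inv, Ring.inverse_eq_inv']; exact inv_ne_zero hdT
  set K0 : ℂ → M3 := fun x => (Dm (ch x))ᴴ * Gi x * Dm (ch x)
  have hK0 : C2M K0 t := (hD.conjTranspose_c2.mul hGi).mul hD.c2
  have hK0d : (K0 t).det ≠ 0 := by
    simp only [K0, Matrix.det_mul, Matrix.det_conjTranspose]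
    exact mul_ne_zero (mul_ne_zero (star_ne_zero.mpr hDd) hGid) hDd
  obtain ⟨-, hσ0, hσw, ⟨d, hσd⟩, hσeq⟩ := sigma_spec m hm cst hc t
  have hσev : ∀ᶠ x in 𝓝 t, DifferentiableAt ℝ (sigma m cst) x :=
    Filter.Eventually.of_forall fun x => (sigma_spec m hm cst hc x).1
  have hC : dualCurv F t = sigma m cst t • dualCurv K0 t +
      (- ((An.om m t / m : ℝ) : ℂ) * sigma m cst t) • K0 t := by
    rw [← hσeq, ← dualCurv_smul hK0 hK0d hσev hσ0 hσw hσd, dualCurv_eq, dualCurv_eq]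
    have e2 : (fun x => dM F x) =ᶠ[𝓝 t] fun x => dM (fun y => sigma m cst y • K0 y) x := by
      filter_upwards [hF.eventuallyEq_nhds] with x hx
      exact dM_congr hx
    rw [dbM_congr e2, dM_congr hF, dbM_congr hF, hF.self_of_nhds]
  have hFt : F t = sigma m cst t • K0 t := hF.self_of_nhds
  have hK0c : dualCurv K0 t = (Dm (ch t))ᴴ *
      (Gi t * (curvatureForm G (γ t) (deriv γ t))ᵀ * Gi t) * Dm (ch t) := by
    rw [dualCurv_congr' hD hDd hGi hGid, dualCurv_dual hG0 hd0,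
      curv1_comp (fun a b => (hG a b).of_le (WithTop.coe_le_coe.mpr le_top)) hγ]
  set C := curvatureForm G (γ t) (deriv γ t)
  have key : 0 ≤ quad (dualCurv K0 t) φ := by
    set ψ : Fin 3 → ℂ := Gi t *ᵥ (Dm (ch t) *ᵥ φ)
    have hGiH : (Gi t)ᴴ = Gi t := hpd.transpose.inv.isHermitian.eq
    have e : star φ ⬝ᵥ dualCurv K0 t *ᵥ φ = star ψ ⬝ᵥ Cᵀ *ᵥ ψ := by
      rw [hK0c, ← Matrix.mulVec_mulVec, ← Matrix.mulVec_mulVec, ← Matrix.mulVec_mulVec,
        ← Matrix.mulVec_mulVec, Matrix.dotProduct_mulVec, ← Matrix.star_mulVec,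
        Matrix.dotProduct_mulVec]
      conv_lhs => rw [← hGiH, ← Matrix.star_mulVec]
      rw [hGiH]
    have e2 : star ψ ⬝ᵥ Cᵀ *ᵥ ψ = star (star ψ) ⬝ᵥ C *ᵥ star ψ := by
      rw [star_star, Matrix.mulVec_transpose, dotProduct_comm, ← Matrix.dotProduct_mulVec]
    show 0 ≤ (star φ ⬝ᵥ dualCurv K0 t *ᵥ φ).re
    rw [e, e2]
    exact hpos _ _
  have hσre : sigma m cst t = ((cst * (1 + ‖t‖ ^ (2 * m)) ^ (-(1 / (m : ℝ))) : ℝ) : ℂ) := rfl
  set r := cst * (1 + ‖t‖ ^ (2 * m)) ^ (-(1 / (m : ℝ)))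
  have hr : 0 ≤ r := by positivity
  have hgoal : quad (dualCurv F t) φ + An.om m t / m * quad (F t) φ = r * quad (dualCurv K0 t) φ := by
    unfold An.quad
    rw [hC, hFt, hσre, ← Complex.ofReal_neg, ← Complex.ofReal_mul]
    simp only [Matrix.add_mulVec, Matrix.smul_mulVec, dotProduct_add, dotProduct_smul,
      smul_eq_mul, Complex.add_re, Complex.re_ofReal_mul]
    ring
  rw [hgoal]
  exact mul_nonneg hr key

section Geometry

variable (H : Idx → X m → M3) [ChartedSpace (Cn 2) (X m)] {hm : 1 ≤ m} {hg : GeomSpec m}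
  (hH : IsHermitianMetric 2 (bundle hm hg) H)

include hH

theorem Kfun_smooth (W : Set ℂ) (u v : ℂ → ℂ) (hW : IsOpen W) (hu : DifferentiableOn ℂ u W)
    (hv : DifferentiableOn ℂ v W) (hon : ∀ s ∈ W, An.OnCurve m s (u s) (v s)) (a b : Fin 3) :
    ContDiffOn ℝ ∞ (fun p : ℂ × ℂ => Kfun H p.1 p.2 (u p.2) (v p.2) a b) (univ ×ˢ W) := by
  rintro ⟨z0, s0⟩ ⟨-, hs0⟩
  obtain ⟨c, ch, G, f, hch, hch0, hf, hG, hpd, hev, -⟩ :=
    sheet_chart H hH W u v hW hu hv hon z0 s0 hs0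
  have hfR : ContDiffAt ℝ ∞ f (z0, s0) := (hf.restrict_scalars ℝ).of_le le_top
  have hGf : ∀ a b, ContDiffAt ℝ ∞ (fun p => (G (f p))ᵀ a b) (z0, s0) :=
    fun a b => (hG b a).comp (z0, s0) hfR
  have hdT : ((G (f (z0, s0)))ᵀ).det ≠ 0 := by
    rw [Matrix.det_transpose]
    exact ((Matrix.isUnit_iff_isUnit_det _).mp hpd.isUnit).ne_zero
  have hGi := contDiffAt_inv_entries hGf hdT
  have hchR : ContDiffAt ℝ ∞ (fun p : ℂ × ℂ => ch p.2) (z0, s0) :=
    ((hch.contDiffAt.restrict_scalars ℝ)).comp (z0, s0) contDiffAt_snd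
  have hDa : ∀ a b, ContDiffAt ℝ ∞ (fun p : ℂ × ℂ => Dm (ch p.2) a b) (z0, s0) := by
    intro a b
    fin_cases a <;> fin_cases b <;> simp [Dm] <;> first | exact hchR | exact contDiffAt_const
  have hDc : ∀ a b, ContDiffAt ℝ ∞ (fun p : ℂ × ℂ => (Dm (ch p.2))ᴴ a b) (z0, s0) :=
    fun a b => conjCLE.contDiff.contDiffAt.comp (z0, s0) (hDa b a)
  have hw : ContDiffAt ℝ ∞ (fun p : ℂ × ℂ => wt m p.1 p.2) (z0, s0) :=
    ((contDiffAt_sigma hm 1 z0).comp (z0, s0) contDiffAt_fst).mul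
      ((contDiffAt_sigma hm 1 s0).comp (z0, s0) contDiffAt_snd)
  refine (ContDiffAt.congr_of_eventuallyEq ?_ (hev.mono fun p hp => by rw [hp])).contDiffWithinAt
  simp only [Matrix.smul_apply, smul_eq_mul, Matrix.mul_apply, Fin.sum_univ_three]
  exact hw.mul ((((((hDc a 0).mul (hGi 0 0)).add ((hDc a 1).mul (hGi 1 0))).add
      ((hDc a 2).mul (hGi 2 0))).mul (hDa 0 b)).add
    (((((hDc a 0).mul (hGi 0 1)).add ((hDc a 1).mul (hGi 1 1))).add
      ((hDc a 2).mul (hGi 2 1))).mul (hDa 1 b)) |>.add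
    (((((hDc a 0).mul (hGi 0 2)).add ((hDc a 1).mul (hGi 1 2))).add
      ((hDc a 2).mul (hGi 2 2))).mul (hDa 2 b)))

variable (hpos : IsGriffithsPositive 2 (bundle hm hg) H)

include hpos

theorem Kfun_curv_s (W : Set ℂ) (u v : ℂ → ℂ) (hW : IsOpen W) (hu : DifferentiableOn ℂ u W)
    (hv : DifferentiableOn ℂ v W) (hon : ∀ s ∈ W, An.OnCurve m s (u s) (v s)) (z s : ℂ)
    (hs : s ∈ W) (φ : Fin 3 → ℂ) :
    0 ≤ quad (dualCurv (fun x => Kfun H z x (u x) (v x)) s) φ +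
      An.om m s / m * quad (Kfun H z s (u s) (v s)) φ := by
  obtain ⟨c, ch, G, f, hch, hch0, hf, hG, hpd, hev, hp⟩ :=
    sheet_chart H hH W u v hW hu hv hon z s hs
  set cz : ℝ := (1 + ‖z‖ ^ (2 * m)) ^ (-(1 / (m : ℝ)))
  have hl : AnalyticAt ℂ (fun x : ℂ => f (z, x)) s :=
    (hf.analyticAt).comp (analyticAt_const.prod analyticAt_id)
  refine curve_ineq hm (G := G) (γ := fun x => f (z, x)) (ch := ch) (cst := cz)
    (F := fun x => Kfun H z x (u x) (v x)) (by positivity) hG hpd hl hch hch0 ?_ (hp hpos) φ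
  have hc : Filter.Tendsto (fun x : ℂ => (z, x)) (𝓝 s) (𝓝 (z, s)) :=
    (continuous_const.prodMk continuous_id).tendsto s
  filter_upwards [hc.eventually hev] with x hx
  rw [hx]
  congr 1
  simp only [wt, sigma, cz, ← Complex.ofReal_mul]
  congr 1
  ring

theorem Kfun_curv_z (z s u v : ℂ) (hon : An.OnCurve m s u v) (hs : s ^ (12 * m) ≠ 1)
    (φ : Fin 3 → ℂ) :
    0 ≤ quad (dualCurv (fun x => Kfun H x s u v) z) φ +
      An.om m z / m * quad (Kfun H z s u v) φ := by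
  have hp0 : An.pp m s ≠ 0 := fun h => hs (by
    rw [show 12 * m = (6 * m) * 2 by ring, pow_mul, sub_eq_zero.mp h]; norm_num)
  have hq0 : An.qq m s ≠ 0 := fun h => hs (by
    rw [show 12 * m = (6 * m) * 2 by ring, pow_mul, eq_neg_of_add_eq_zero_left h]; norm_num)
  let u' : ℂ → ℂ := fun x => u * (An.pp m x / An.pp m s) ^ (1 / 2 : ℂ)
  let v' : ℂ → ℂ := fun x => v * (An.qq m x / An.qq m s) ^ (1 / 2 : ℂ)
  let W : Set ℂ := {x | 0 < (An.pp m x / An.pp m s).re ∧ 0 < (An.qq m x / An.qq m s).re}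
  have cp : Continuous fun x => An.pp m x / An.pp m s := by unfold An.pp; fun_prop
  have cq : Continuous fun x => An.qq m x / An.qq m s := by unfold An.qq; fun_prop
  have hW : IsOpen W := (isOpen_lt continuous_const (Complex.continuous_re.comp cp)).inter
    (isOpen_lt continuous_const (Complex.continuous_re.comp cq))
  have hsW : s ∈ W := by simp [W, div_self hp0, div_self hq0]
  have sl : ∀ w : ℂ, 0 < w.re → w ∈ Complex.slitPlane := fun w h => Or.inl h
  have hu : DifferentiableOn ℂ u' W := fun x hx =>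
    ((differentiableAt_const u).mul (((by unfold An.pp; fun_prop : DifferentiableAt ℂ
      (fun x => An.pp m x / An.pp m s) x)).cpow_const (sl _ hx.1))).differentiableWithinAt
  have hv : DifferentiableOn ℂ v' W := fun x hx =>
    ((differentiableAt_const v).mul (((by unfold An.qq; fun_prop : DifferentiableAt ℂ
      (fun x => An.qq m x / An.qq m s) x)).cpow_const (sl _ hx.2))).differentiableWithinAt
  have half : ∀ w : ℂ, (w ^ (1 / 2 : ℂ)) ^ 2 = w := fun w => by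
    rw [one_div]
    exact Complex.cpow_nat_inv_pow w two_ne_zero
  have hon' : ∀ x ∈ W, An.OnCurve m x (u' x) (v' x) := fun x _ =>
    ⟨by simp only [u']; rw [mul_pow, half, hon.1, mul_div_cancel₀ _ hp0],
      by simp only [v']; rw [mul_pow, half, hon.2, mul_div_cancel₀ _ hq0]⟩
  have hu0 : u' s = u := by simp [u', div_self hp0]
  have hv0 : v' s = v := by simp [v', div_self hq0]
  obtain ⟨c, ch, G, f, hch, hch0, hf, hG, hpd, hev, hp⟩ :=
    sheet_chart H hH W u' v' hW hu hv hon' z s hsW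
  set cs : ℝ := (1 + ‖s‖ ^ (2 * m)) ^ (-(1 / (m : ℝ)))
  have hl : AnalyticAt ℂ (fun x : ℂ => f (x, s)) z :=
    AnalyticAt.comp (g := f) (f := fun x : ℂ => (x, s)) (x := z) hf.analyticAt
      (analyticAt_id.prod analyticAt_const)
  refine curve_ineq hm (G := G) (γ := fun x => f (x, s)) (ch := fun _ => ch s) (cst := cs)
    (F := fun x => Kfun H x s u v) (by positivity) hG hpd hl analyticAt_const hch0 ?_ (hp hpos) φ
  have hc : Filter.Tendsto (fun x : ℂ => (x, s)) (𝓝 z) (𝓝 (z, s)) :=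
    (continuous_id.prodMk continuous_const).tendsto z
  filter_upwards [hc.eventually hev] with x hx
  simp only [hu0, hv0] at hx
  rw [hx]
  congr 1
  simp only [wt, sigma, cs, ← Complex.ofReal_mul]
  congr 1
  ring

end Geometry

end Vale.Agent.P296.Br
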