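import Mathlib
import Vale.Agent.P296.Bridge.Fields
import Vale.Agent.P296.Bridge.Estimates

/-! Boundedness of the normalised norms on the affine sheets, from compactness. -/

open Set
open scoped Manifold ContDiff Topology ComplexOrder Matrix
open Complex ComplexConjugate

noncomputable section

namespace Vale.Agent.P296.Br

variable {m : ℕ}

/-- The other index. -/
def oth (a : Fin 2) : Fin 2 := if a = 0 then 1 else 0

/-- Normalised tuples adapted to the index `i`. -/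
def pieceT (m : ℕ) (i : Idx) : Set T :=
  {t | ‖t.1 i.1‖ = 1 ∧ ‖t.1 (oth i.1)‖ ≤ 1 ∧ ‖t.2.1 i.2.1‖ = 1 ∧ ‖t.2.1 (oth i.2.1)‖ ≤ 1 ∧
    t.2.2.1 ^ 2 = t.2.1 1 ^ (6 * m) - t.2.1 0 ^ (6 * m) ∧
    t.2.2.2 ^ 2 = t.2.1 1 ^ (6 * m) + t.2.1 0 ^ (6 * m) ∧
    (if i.2.2 = 0 then ‖t.2.2.2‖ ≤ ‖t.2.2.1‖ else ‖t.2.2.1‖ ≤ ‖t.2.2.2‖)}

theorem norm_le_one_of_piece {f : Fin 2 → ℂ} {a : Fin 2} (h1 : ‖f a‖ = 1) (h2 : ‖f (oth a)‖ ≤ 1)
    (k : Fin 2) : ‖f k‖ ≤ 1 := by
  fin_cases a <;> fin_cases k <;> simp_all [oth]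

theorem isCompact_pieceT (i : Idx) : IsCompact (pieceT m i) := by
  have hcl : IsClosed (pieceT m i) := by
    simp only [pieceT, Set.ofPred_and]
    refine (isClosed_eq (by fun_prop) continuous_const).inter <|
      (isClosed_le (by fun_prop) continuous_const).inter <|
      (isClosed_eq (by fun_prop) continuous_const).inter <|
      (isClosed_le (by fun_prop) continuous_const).inter <|
      (isClosed_eq (by fun_prop) (by fun_prop)).inter <|
      (isClosed_eq (by fun_prop) (by fun_prop)).inter ?_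
    split_ifs <;> exact isClosed_le (by fun_prop) (by fun_prop)
  have hsub : pieceT m i ⊆ Metric.closedBall 0 2 := by
    rintro ⟨z, s, u, v⟩ ⟨h1, h2, h3, h4, h5, h6, -⟩
    have hz := norm_le_one_of_piece h1 h2
    have hs := norm_le_one_of_piece h3 h4
    have hk : ∀ k, ‖s k ^ (6 * m)‖ ≤ 1 := fun k => by
      rw [norm_pow]; exact pow_le_one₀ (norm_nonneg _) (hs k)
    have hu : ‖u‖ ≤ 2 := by
      have : ‖u‖ ^ 2 ≤ 2 := by
        rw [← norm_pow, h5]; exact (norm_sub_le _ _).trans (by linarith [hk 0, hk 1])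
      nlinarith [norm_nonneg u]
    have hv : ‖v‖ ≤ 2 := by
      have : ‖v‖ ^ 2 ≤ 2 := by
        rw [← norm_pow, h6]; exact (norm_add_le _ _).trans (by linarith [hk 0, hk 1])
      nlinarith [norm_nonneg v]
    simp only [Metric.mem_closedBall, dist_zero_right, Prod.norm_def, max_le_iff]
    exact ⟨(pi_norm_le_iff_of_nonneg (by norm_num)).mpr fun k => (hz k).trans one_le_two,
      (pi_norm_le_iff_of_nonneg (by norm_num)).mpr fun k => (hs k).trans one_le_two, hu, hv⟩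
  exact (isCompact_closedBall 0 2).of_isClosed_subset hcl hsub

/-- The part of `X m` adapted to the index `i`. -/
def pieceX (m : ℕ) (i : Idx) : Set (X m) := Rep.pt '' {p : Rep m | p.tuple ∈ pieceT m i}

theorem isCompact_pieceX (i : Idx) : IsCompact (pieceX m i) := by
  have hind : Topology.IsInducing (Rep.tuple : Rep m → T) := ⟨rfl⟩
  have himg : Rep.tuple '' {p : Rep m | p.tuple ∈ pieceT m i} = pieceT m i := by
    refine Subset.antisymm (image_subset_iff.mpr fun p hp => hp) ?_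
    rintro ⟨z, s, u, v⟩ ht
    obtain ⟨h1, -, h3, -, h5, h6, -⟩ := id ht
    refine ⟨⟨z, s, u, v, ?_, ?_, h5, h6⟩, ht, rfl⟩
    · intro h; simp only [h, Pi.zero_apply, norm_zero] at h1; exact zero_ne_one h1
    · intro h; simp only [h, Pi.zero_apply, norm_zero] at h3; exact zero_ne_one h3
  have hcpt : IsCompact {p : Rep m | p.tuple ∈ pieceT m i} := by
    rw [hind.isCompact_iff, himg]; exact isCompact_pieceT i
  exact hcpt.image continuous_quotient_mk'

theorem inBase_of_piece (hm : 1 ≤ m) {p : Rep m} {i : Idx} (h : p.tuple ∈ pieceT m i) :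
    p.InBase i := by
  obtain ⟨h1, h2, h3, h4, -, -, h7⟩ := h
  refine ⟨?_, ?_, ?_⟩
  · intro e
    simp only [Rep.tuple, e, norm_zero] at h1
    exact zero_ne_one h1
  · intro e
    simp only [Rep.tuple, e, norm_zero] at h3
    exact zero_ne_one h3
  · intro e
    obtain ⟨j, hj⟩ := Rep.exists_index hm p
    unfold Rep.chi at e
    by_cases hc : i.2.2 = 0
    · simp only [hc, if_true] at e h7
      have hv : p.v = 0 := norm_le_zero_iff.mp (by simpa [Rep.tuple, e] using h7)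
      exact hj.2.2 (by unfold Rep.chi; split <;> assumption)
    · simp only [hc, if_false] at e h7
      have hv : p.u = 0 := norm_le_zero_iff.mp (by simpa [Rep.tuple, e] using h7)
      exact hj.2.2 (by unfold Rep.chi; split <;> assumption)

section Geometry

variable (H : Idx → X m → M3) [ChartedSpace (Cn 2) (X m)] {hm : 1 ≤ m} {hg : GeomSpec m}
  (hH : IsHermitianMetric 2 (bundle hm hg) H)

include hH

theorem exists_form_bound :
    ∃ C : ℝ, 0 ≤ C ∧ ∀ i, ∀ x ∈ pieceX m i, ∀ w : Fin 3 → ℂ,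
      An.quad (((H i x)ᵀ)⁻¹) w ≤ C * (‖w 0‖ + ‖w 1‖ + ‖w 2‖) ^ 2 := by
  have hc : ∀ i a b, ∃ C : ℝ, 0 ≤ C ∧ ∀ x ∈ pieceX m i, ‖((H i x)ᵀ)⁻¹ a b‖ ≤ C := by
    intro i a b
    have hsub : pieceX m i ⊆ (bundle hm hg).baseSet i := by
      rintro x ⟨p, hp, rfl⟩
      exact (inBase_iff rfl i).mp (inBase_of_piece hm hp)
    have hcont : ∀ a b, ContinuousOn (fun x => H i x a b) (pieceX m i) :=
      fun a b => (hH.2.2 i a b).continuousOn.mono hsub
    have hdet : ContinuousOn (fun x => ((H i x)ᵀ).det) (pieceX m i) := by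
      simp only [Matrix.det_fin_three, Matrix.transpose_apply]
      fun_prop
    have hne : ∀ x ∈ pieceX m i, ((H i x)ᵀ).det ≠ 0 := fun x hx =>
      ((Matrix.isUnit_iff_isUnit_det _).mp (hH.1 i x (hsub hx)).transpose.isUnit).ne_zero
    have hinv : ContinuousOn (fun x => ((H i x)ᵀ)⁻¹ a b) (pieceX m i) := by
      simp only [Matrix.inv_def, Matrix.smul_apply, smul_eq_mul, Ring.inverse_eq_inv']
      refine (hdet.inv₀ hne).mul ?_
      simp only [Matrix.adjugate_fin_three, Matrix.transpose_apply]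
      fin_cases a <;> fin_cases b <;> simp <;> fun_prop
    obtain ⟨C, hC⟩ := (isCompact_pieceX i).exists_bound_of_continuousOn hinv
    exact ⟨max C 0, le_max_right _ _, fun x hx => (hC x hx).trans (le_max_left _ _)⟩
  choose C hC0 hC using hc
  refine ⟨∑ i, ∑ a, ∑ b, C i a b,
    Finset.sum_nonneg fun i _ => Finset.sum_nonneg fun a _ => Finset.sum_nonneg fun b _ => hC0 i a b,
    fun i x hx w => ?_⟩
  set S := ∑ i, ∑ a, ∑ b, C i a b with hS
  have hle : ∀ a b, C i a b ≤ S := fun a b => by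
    refine le_trans ?_ (Finset.single_le_sum (f := fun i => ∑ a, ∑ b, C i a b) (fun i _ =>
      Finset.sum_nonneg fun a _ => Finset.sum_nonneg fun b _ => hC0 i a b) (Finset.mem_univ i))
    refine le_trans ?_ (Finset.single_le_sum (f := fun a => ∑ b, C i a b) (fun a _ =>
      Finset.sum_nonneg fun b _ => hC0 i a b) (Finset.mem_univ a))
    exact Finset.single_le_sum (f := fun b => C i a b) (fun b _ => hC0 i a b) (Finset.mem_univ b)
  set M := ((H i x)ᵀ)⁻¹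
  set N := ‖w 0‖ + ‖w 1‖ + ‖w 2‖
  have hwN : ∀ a, ‖w a‖ ≤ N := fun a => by
    fin_cases a <;> simp [N] <;> linarith [norm_nonneg (w 0), norm_nonneg (w 1), norm_nonneg (w 2)]
  calc An.quad M w ≤ ‖star w ⬝ᵥ M *ᵥ w‖ := Complex.re_le_norm _
    _ ≤ ∑ a, ∑ b, ‖w a‖ * (S * ‖w b‖) := by
        simp only [dotProduct, Matrix.mulVec, Finset.mul_sum, Pi.star_apply]
        refine (norm_sum_le _ _).trans (Finset.sum_le_sum fun a _ => ?_)
        refine (norm_sum_le _ _).trans (Finset.sum_le_sum fun b _ => ?_)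
        rw [norm_mul, norm_mul, norm_star]
        gcongr
        exact (hC i a b x hx).trans (hle a b)
    _ = S * N ^ 2 := by
        simp only [Fin.sum_univ_three, N]
        ring

theorem Kfun_quad_le {C : ℝ} (hC : 0 ≤ C)
    (hb : ∀ i, ∀ x ∈ pieceX m i, ∀ w : Fin 3 → ℂ,
      An.quad (((H i x)ᵀ)⁻¹) w ≤ C * (‖w 0‖ + ‖w 1‖ + ‖w 2‖) ^ 2)
    {z s u v : ℂ} (hon : An.OnCurve m s u v) (φ : Fin 3 → ℂ) :
    (‖s‖ ≤ 1 → An.quad (Kfun H z s u v) φ ≤ C * (2 * amax m s ^ 2 * (‖φ 0‖ + ‖φ 1‖) +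
        amax m z ^ 4 / amax m s * ‖φ 2‖) ^ 2) ∧
    (1 < ‖s‖ → An.quad (Kfun H z s u v) φ ≤ C * (2 * amax m s ^ 2 *
        (‖φ 0 - φ 2 * dAff m z s * u‖ + ‖φ 1 - φ 2 * dAff m z s * v‖) +
        amax m z ^ 4 / amax m s * ‖φ 2‖) ^ 2) := by
  classical
  set a : Fin 2 := if ‖z‖ ≤ 1 then 0 else 1 with ha
  set b : Fin 2 := if ‖s‖ ≤ 1 then 0 else 1 with hb'
  set c : Fin 2 := if ‖v‖ ≤ ‖u‖ then 0 else 1 with hc'
  set i : Idx := (a, b, c)
  set p0 := affRep z s u v hon with hp0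
  -- the normalised representative
  set za : ℂ := p0.z a
  set sb : ℂ := p0.s b
  have hza1 : ‖za‖ = max 1 ‖z‖ := by
    simp only [za, ha]; split_ifs with h <;> simp [hp0, affRep, h, le_of_lt, not_le.mp, max_def]
  have hsb1 : ‖sb‖ = max 1 ‖s‖ := by
    simp only [sb, hb']; split_ifs with h <;> simp [hp0, affRep, h, le_of_lt, not_le.mp, max_def]
  have hza : za ≠ 0 := norm_pos_iff.mp (by rw [hza1]; positivity)
  have hsb : sb ≠ 0 := norm_pos_iff.mp (by rw [hsb1]; positivity)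
  let q : Rep m :=
    { z := za⁻¹ • p0.z
      s := sb⁻¹ • p0.s
      u := sb⁻¹ ^ (3 * m) * p0.u
      v := sb⁻¹ ^ (3 * m) * p0.v
      hz := smul_ne_zero (inv_ne_zero hza) p0.hz
      hs := smul_ne_zero (inv_ne_zero hsb) p0.hs
      hu := by
        rw [mul_pow, p0.hu]; simp only [Pi.smul_apply, smul_eq_mul, mul_pow, ← pow_mul]; ring
      hv := by
        rw [mul_pow, p0.hv]; simp only [Pi.smul_apply, smul_eq_mul, mul_pow, ← pow_mul]; ring }
  have hrel : Rep.Rel p0 q := ⟨za⁻¹, sb⁻¹, 1, inv_ne_zero hza, inv_ne_zero hsb, one_pow 2,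
    rfl, rfl, by simp [q], by simp [q]⟩
  have hpt : q.pt = p0.pt := (Quotient.sound (s := repSetoid m) hrel).symm
  have hmem : q.tuple ∈ pieceT m i := by
    have hz0 : ∀ k, ‖p0.z k‖ ≤ ‖za‖ := fun k => by
      rw [hza1]; fin_cases k <;> simp [hp0, affRep]
    have hs0 : ∀ k, ‖p0.s k‖ ≤ ‖sb‖ := fun k => by
      rw [hsb1]; fin_cases k <;> simp [hp0, affRep]
    refine ⟨?_, ?_, ?_, ?_, q.hu, q.hv, ?_⟩
    · simp [q, Rep.tuple, i, za, hza]
    · simp only [q, Rep.tuple, i, Pi.smul_apply, smul_eq_mul, norm_mul, norm_inv]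
      rw [inv_mul_le_iff₀ (norm_pos_iff.mpr hza), mul_one]
      exact hz0 _
    · simp [q, Rep.tuple, i, sb, hsb]
    · simp only [q, Rep.tuple, i, Pi.smul_apply, smul_eq_mul, norm_mul, norm_inv]
      rw [inv_mul_le_iff₀ (norm_pos_iff.mpr hsb), mul_one]
      exact hs0 _
    · simp only [q, Rep.tuple, i, hc', hp0, affRep, norm_mul]
      split_ifs with h1 h2 h2
      · exact mul_le_mul_of_nonneg_left h1 (norm_nonneg _)
      · exact absurd rfl h2
      · exact absurd h2 (by decide)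
      · exact mul_le_mul_of_nonneg_left (not_le.mp h1).le (norm_nonneg _)
  have hi : p0.InBase i := Rep.inBase_rel hrel.symm (inBase_of_piece hm hmem)
  set x := p0.pt with hx
  have hxmem : x ∈ pieceX m i := ⟨q, hmem, hpt⟩
  -- change of trivialisation
  set i0 : Idx := (0, 0, c)
  have hchi : p0.chi c ≠ 0 := hi.2.2
  have hi0 : p0.InBase i0 := inBase_aff hon c hchi
  set M := transX i i0 x with hM
  have hMp : M = p0.trans i i0 := transX_eq hm rfl i i0
  have hcomp : H i x = Mᴴ * H i0 x * M := by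
    refine matrix_ext_of_form fun w w' => ?_
    have := hH.2.1 i i0 x ⟨(inBase_iff rfl i).mp hi, (inBase_iff rfl i0).mp hi0⟩ w w'
    rw [bundle_coordChange, bundle_coordChange] at this
    rw [← this, Matrix.star_mulVec, ← Matrix.dotProduct_mulVec, Matrix.mulVec_mulVec,
      Matrix.mulVec_mulVec]
  have huM : IsUnit M.det := by
    have h1 : p0.trans i0 i * p0.trans i i0 = 1 := by
      rw [Rep.trans_comp hi0, Rep.trans_self hi]
    exact Matrix.isUnit_det_of_left_inverse (by rw [hMp]; exact h1)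
  set w0 : Fin 3 → ℂ := Dm (p0.chi c) *ᵥ φ with hw0
  set w : Fin 3 → ℂ := Mᵀ *ᵥ w0 with hw
  have hKw : An.quad (Kfun H z s u v) φ =
      ((1 + ‖z‖ ^ (2 * m)) ^ (-(1 / (m : ℝ))) * (1 + ‖s‖ ^ (2 * m)) ^ (-(1 / (m : ℝ)))) *
        An.quad (((H i x)ᵀ)⁻¹) w := by
    have hT : ((H i0 x)ᵀ)⁻¹ = (Mᵀ)ᴴ * ((H i x)ᵀ)⁻¹ * Mᵀ := by
      have hu1 : IsUnit (Mᵀ).det := by rwa [Matrix.det_transpose]
      have hu2 : IsUnit ((Mᵀ)ᴴ).det := by rw [Matrix.det_conjTranspose]; exact hu1.star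
      have hMc : (Mᴴ)ᵀ = (Mᵀ)ᴴ := by ext p q; simp [Matrix.conjTranspose_apply]
      rw [hcomp, Matrix.transpose_mul, Matrix.transpose_mul, hMc, Matrix.mul_inv_rev,
        Matrix.mul_inv_rev]
      simp only [mul_assoc]
      rw [Matrix.nonsing_inv_mul _ hu1, mul_one, ← mul_assoc, Matrix.mul_nonsing_inv _ hu2, one_mul]
    have e : star φ ⬝ᵥ Kloc H p0 c *ᵥ φ = star w ⬝ᵥ ((H i x)ᵀ)⁻¹ *ᵥ w := by
      show star φ ⬝ᵥ ((Dm (p0.chi c))ᴴ * ((H i0 x)ᵀ)⁻¹ * Dm (p0.chi c)) *ᵥ φ = _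
      rw [hT]
      simp only [hw, hw0, Matrix.star_mulVec, ← Matrix.dotProduct_mulVec, Matrix.mulVec_mulVec,
        Matrix.conjTranspose_mul, mul_assoc]
    rw [Kfun_eq H hH hon c hchi]
    unfold An.quad
    rw [Matrix.smul_mulVec, dotProduct_smul, smul_eq_mul, e]
    simp only [wt, sigma, one_mul, ← Complex.ofReal_mul, Complex.re_ofReal_mul]
  set r := (1 + ‖z‖ ^ (2 * m)) ^ (-(1 / (m : ℝ))) * (1 + ‖s‖ ^ (2 * m)) ^ (-(1 / (m : ℝ)))
  have hr0 : 0 ≤ r := by positivity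
  have hmR : (0 : ℝ) < m := by exact_mod_cast hm
  have hwt : ∀ y : ℂ, (1 + ‖y‖ ^ (2 * m)) ^ (-(1 / (m : ℝ))) * max 1 ‖y‖ ^ 2 ≤ 1 := by
    intro y
    have h0 : (0 : ℝ) < 1 + ‖y‖ ^ (2 * m) := by positivity
    have hpow : (max 1 ‖y‖ ^ 2) ^ m ≤ 1 + ‖y‖ ^ (2 * m) := by
      rcases max_cases 1 ‖y‖ with ⟨h, -⟩ | ⟨h, -⟩ <;> rw [h]
      · simp
      · rw [← pow_mul]; linarith
    have h1 : max 1 ‖y‖ ^ 2 ≤ (1 + ‖y‖ ^ (2 * m)) ^ (1 / (m : ℝ)) := by
      rw [one_div, Real.le_rpow_inv_iff_of_pos (by positivity) h0.le hmR, Real.rpow_natCast]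
      exact hpow
    rw [Real.rpow_neg h0.le, inv_mul_le_iff₀ (by positivity), mul_one]
    exact h1
  have hr : r * (‖za‖ * ‖sb‖) ^ 2 ≤ 1 := by
    rw [hza1, hsb1]
    have := mul_le_mul (hwt z) (hwt s) (by positivity) zero_le_one
    calc _ = _ := by ring
      _ ≤ (1 : ℝ) * 1 := this
      _ = 1 := one_mul 1
  have hAz : amax m z = ‖za‖ ^ m := by
    rw [hza1, amax, norm_pow]
    rcases max_cases 1 ‖z‖ with ⟨h, h'⟩ | ⟨h, h'⟩ <;> rw [h]
    · rw [one_pow, max_eq_left (pow_le_one₀ (norm_nonneg _) h')]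
    · rw [max_eq_right (one_le_pow₀ h'.le)]
  have hAs : amax m s = ‖sb‖ ^ m := by
    rw [hsb1, amax, norm_pow]
    rcases max_cases 1 ‖s‖ with ⟨h, h'⟩ | ⟨h, h'⟩ <;> rw [h]
    · rw [one_pow, max_eq_left (pow_le_one₀ (norm_nonneg _) h')]
    · rw [max_eq_right (one_le_pow₀ h'.le)]
  have hn : ‖p0.chi c‖ ≤ 2 * amax m s ^ 3 := by
    unfold Rep.chi; split_ifs
    · exact (norm_u_le hon).1
    · exact (norm_u_le hon).2
  -- the three components
  have hsbp : 0 < ‖sb‖ := norm_pos_iff.mpr hsb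
  have hq : ‖p0.qfac i‖ ≤ ‖za‖ * ‖sb‖ * (2 * amax m s ^ 2) := by
    have e : p0.qfac i = za * sb * (sb ^ (2 * m) * (p0.chi c / sb ^ (3 * m))) := by
      show za * sb ^ (2 * m + 1) * _ = _
      rw [pow_succ]; ring
    rw [e, norm_mul, norm_mul, norm_mul, norm_div, norm_pow, norm_pow]
    refine mul_le_mul_of_nonneg_left ?_ (by positivity)
    rw [mul_comm 2 m, mul_comm 3 m, pow_mul, pow_mul, ← hAs]
    have hA1 := one_le_amax m s
    calc amax m s ^ 2 * (‖p0.chi c‖ / amax m s ^ 3) ≤ amax m s ^ 2 * (2 * amax m s ^ 3 / amax m s ^ 3) := by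
          gcongr
      _ = 2 * amax m s ^ 2 := by field_simp
  have hk : ‖p0.kfac i‖ = ‖za‖ * ‖sb‖ * (amax m z ^ 4 / amax m s) := by
    obtain ⟨l, hl⟩ := Nat.exists_eq_add_of_le hm
    show ‖za ^ (4 * m + 1) / sb ^ (m - 1)‖ = _
    rw [norm_div, norm_pow, norm_pow, hAz, hAs, show m - 1 = l by omega, ← pow_mul, mul_comm m 4,
      show m = l + 1 by omega, pow_succ, pow_succ ‖sb‖ l]
    field_simp
  have hd : p0.dfac b 0 = if ‖s‖ ≤ 1 then 0 else -dAff m z s := by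
    simp only [hb', Rep.dfac]
    by_cases hs1 : ‖s‖ ≤ 1
    · simp [hs1]
    · simp [hs1, hp0, affRep, Alg.dD, dAff]
  have hq0 : p0.qfac i0 = p0.chi c := by simp [Rep.qfac, i0, hp0, affRep]
  have hk0 : p0.kfac i0 = 1 := by simp [Rep.kfac, i0, hp0, affRep]
  have hd' : ∀ x : ℂ, p0.dfac i.2.1 i0.2.1 * x = p0.dfac b 0 * x := fun x => rfl
  have hwe : w 0 = p0.qfac i * (φ 0 + φ 2 * p0.dfac b 0 * u) ∧
      w 1 = p0.qfac i * (φ 1 + φ 2 * p0.dfac b 0 * v) ∧ w 2 = p0.kfac i * φ 2 := by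
    simp only [hw, hw0, hMp, Rep.trans, hq0, hk0, hd', Dm, Matrix.mulVec_diagonal, Matrix.mulVec,
      dotProduct, Matrix.transpose_apply, Fin.sum_univ_three]
    simp
    refine ⟨?_, ?_⟩ <;> field_simp <;> simp only [hp0, affRep] <;> ring
  have main : ∀ e : ℂ, p0.dfac b 0 = e → An.quad (Kfun H z s u v) φ ≤ C * (2 * amax m s ^ 2 *
      (‖φ 0 + φ 2 * e * u‖ + ‖φ 1 + φ 2 * e * v‖) + amax m z ^ 4 / amax m s * ‖φ 2‖) ^ 2 := by
    intro e he
    set P := 2 * amax m s ^ 2 * (‖φ 0 + φ 2 * e * u‖ + ‖φ 1 + φ 2 * e * v‖) +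
      amax m z ^ 4 / amax m s * ‖φ 2‖
    have hw_le : ‖w 0‖ + ‖w 1‖ + ‖w 2‖ ≤ ‖za‖ * ‖sb‖ * P := by
      rw [hwe.1, hwe.2.1, hwe.2.2, he, norm_mul, norm_mul, norm_mul, hk]
      have h0 := mul_le_mul_of_nonneg_right hq (norm_nonneg (φ 0 + φ 2 * e * u))
      have h1 := mul_le_mul_of_nonneg_right hq (norm_nonneg (φ 1 + φ 2 * e * v))
      simp only [P]
      linarith
    have hN0 : 0 ≤ ‖w 0‖ + ‖w 1‖ + ‖w 2‖ := by positivity
    calc An.quad (Kfun H z s u v) φ = r * An.quad (((H i x)ᵀ)⁻¹) w := hKw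
      _ ≤ r * (C * (‖za‖ * ‖sb‖ * P) ^ 2) := mul_le_mul_of_nonneg_left ((hb i x hxmem w).trans
          (mul_le_mul_of_nonneg_left (pow_le_pow_left₀ hN0 hw_le 2) hC)) hr0
      _ = (r * (‖za‖ * ‖sb‖) ^ 2) * (C * P ^ 2) := by ring
      _ ≤ C * P ^ 2 := mul_le_of_le_one_left (by positivity) hr
  constructor
  · intro hs1
    have := main 0 (by rw [hd, if_pos hs1])
    simpa using this
  · intro hs1
    have := main (-dAff m z s) (by rw [hd, if_neg (not_le.mpr hs1)])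
    simpa [sub_eq_add_neg] using this

end Geometry

end Vale.Agent.P296.Br
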