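import Mathlib
import Vale.Agent.P296.Bridge.Bound

/-! A Griffiths positive metric on `E m` yields the data of the analytic core. -/

open Set
open scoped Manifold ContDiff Topology ComplexOrder Matrix
open Complex ComplexConjugate

noncomputable section

namespace Vale.Agent.P296.Br

variable {m : ℕ} {z s u v : ℂ}

/-- The bound on one functional in the frame adapted to `s`. -/
def frameSum (m : ℕ) (z s u v : ℂ) (φ : Fin 3 → ℂ) : ℝ :=
  2 * amax m s ^ 2 * (if ‖s‖ ≤ 1 then ‖φ 0‖ + ‖φ 1‖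
    else ‖φ 0 - φ 2 * dAff m z s * u‖ + ‖φ 1 - φ 2 * dAff m z s * v‖) +
  amax m z ^ 4 / amax m s * ‖φ 2‖

theorem amax_of_le (hs : ‖s‖ ≤ 1) : amax m s = 1 :=
  max_eq_left (by rw [norm_pow]; exact pow_le_one₀ (norm_nonneg _) hs)

theorem amax_of_gt (hs : 1 < ‖s‖) : amax m s = ‖s ^ m‖ ∧ s ^ m ≠ 0 := by
  have h : 1 ≤ ‖s ^ m‖ := by rw [norm_pow]; exact one_le_pow₀ hs.le
  exact ⟨max_eq_right h, norm_pos_iff.mp (by linarith)⟩

theorem frameSum_nonneg (φ : Fin 3 → ℂ) : 0 ≤ frameSum m z s u v φ := by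
  have := one_le_amax m s
  have := one_le_amax m z
  unfold frameSum
  split_ifs <;> positivity

theorem frameSum_q1 (h : An.OnCurve m s u v) :
    frameSum m z s u v (An.q1 m z s u v) ≤ 10 * amax m z ^ 5 := by
  have hA := one_le_amax m z
  have hB := one_le_amax m s
  have hA5 : 1 ≤ amax m z ^ 5 := one_le_pow₀ hA
  obtain ⟨hu, hv⟩ := norm_u_le h
  have hd : ‖s ^ m - z ^ m‖ ≤ 2 * (amax m s * amax m z) := by
    refine (norm_sub_le _ _).trans ?_
    nlinarith [norm_le_amax m s, norm_le_amax m z]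
  have hF : amax m z ^ 4 / amax m s * ‖s ^ m - z ^ m‖ ≤ 2 * amax m z ^ 5 := by
    calc _ ≤ amax m z ^ 4 / amax m s * (2 * (amax m s * amax m z)) :=
          mul_le_mul_of_nonneg_left hd (by positivity)
      _ = _ := by field_simp
  unfold frameSum
  simp only [An.q1, Matrix.cons_val_zero, Matrix.cons_val_one, Matrix.cons_val]
  split_ifs with hs
  · rw [amax_of_le hs] at hu hv hF ⊢
    nlinarith
  · obtain ⟨hB', hs0⟩ := amax_of_gt (m := m) (not_le.mp hs)
    have e : ∀ w : ℂ, w - (s ^ m - z ^ m) * dAff m z s * w = w * (z ^ m / s ^ m) ^ 5 := fun w => by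
      rw [← q1_frame m z s hs0]; ring
    have hr : ∀ w : ℂ, ‖w‖ ≤ 2 * amax m s ^ 3 →
        2 * amax m s ^ 2 * ‖w - (s ^ m - z ^ m) * dAff m z s * w‖ ≤ 4 * amax m z ^ 5 := by
      intro w hw
      rw [e, norm_mul, norm_pow, norm_div, ← hB']
      calc 2 * amax m s ^ 2 * (‖w‖ * (‖z ^ m‖ / amax m s) ^ 5)
          ≤ 2 * amax m s ^ 2 * ((2 * amax m s ^ 3) * (amax m z / amax m s) ^ 5) := by
            gcongr; exact norm_le_amax m z
        _ = 4 * amax m z ^ 5 := by field_simp; ring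
    nlinarith [hr u hu, hr v hv]

theorem frameSum_vV (h : An.OnCurve m s u v) :
    frameSum m z s u v (An.vV u v) ≤ 10 * amax m s ^ 5 := by
  have hB := one_le_amax m s
  obtain ⟨hu, hv⟩ := norm_u_le h
  have h5 : 0 ≤ amax m s ^ 5 := by positivity
  unfold frameSum
  simp only [An.vV, Matrix.cons_val_zero, Matrix.cons_val_one, Matrix.cons_val, zero_mul, sub_zero,
    norm_zero, mul_zero, add_zero, ite_self]
  nlinarith [mul_le_mul_of_nonneg_left hu (sq_nonneg (amax m s)),
    mul_le_mul_of_nonneg_left hv (sq_nonneg (amax m s))]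

theorem frameSum_wW (h : An.OnCurve m s u v) :
    frameSum m z s u v (An.wW u v) ≤ 10 / amax m s := by
  have hB := one_le_amax m s
  have hN := amax_le_uv h
  have hB0 : 0 < amax m s := by linarith
  have hN0 : 0 < ‖u‖ ^ 2 + ‖v‖ ^ 2 := lt_of_lt_of_le (by positivity) hN
  set N := ‖u‖ ^ 2 + ‖v‖ ^ 2 with hNdef
  have hsq : ∀ x : ℝ, 0 ≤ x → x ^ 2 ≤ N → x / N * amax m s ^ 3 ≤ 1 := by
    intro x hx hx2
    rw [div_mul_eq_mul_div, div_le_one hN0]
    nlinarith [sq_nonneg (x * amax m s ^ 3 - N), pow_pos hB0 3, mul_le_mul hx2 hN (by positivity) hN0.le]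
  have hu := hsq ‖u‖ (norm_nonneg _) (by simp only [hNdef]; nlinarith [sq_nonneg ‖v‖])
  have hv := hsq ‖v‖ (norm_nonneg _) (by simp only [hNdef]; nlinarith [sq_nonneg ‖u‖])
  have e0 : ‖An.wW u v 0‖ = ‖v‖ / N := by
    simp only [An.wW, Pi.smul_apply, smul_eq_mul, Matrix.cons_val_zero, norm_mul, norm_inv,
      Complex.norm_real, Real.norm_eq_abs, abs_of_nonneg (show (0 : ℝ) ≤ ‖u‖ ^ 2 + ‖v‖ ^ 2 by positivity), RCLike.norm_conj, hNdef]
    ring
  have e1 : ‖An.wW u v 1‖ = ‖u‖ / N := by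
    simp only [An.wW, Pi.smul_apply, smul_eq_mul, Matrix.cons_val_one, Matrix.cons_val_zero, norm_mul,
      norm_inv, Complex.norm_real, Real.norm_eq_abs, abs_of_nonneg (show (0 : ℝ) ≤ ‖u‖ ^ 2 + ‖v‖ ^ 2 by positivity), norm_neg, RCLike.norm_conj,
      hNdef]
    ring
  have e2 : An.wW u v 2 = 0 := by simp [An.wW]
  unfold frameSum
  simp only [e2, zero_mul, sub_zero, norm_zero, mul_zero, add_zero, ite_self, e0, e1]
  rw [le_div_iff₀ hB0]
  nlinarith

theorem frameSum_gG (h : An.OnCurve m s u v) :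
    frameSum m z s u v (An.gG m z s u v) ≤ 600 * (amax m s ^ 4 / amax m z) := by
  have hA := one_le_amax m z
  have hB := one_le_amax m s
  have hA0 : 0 < amax m z := by linarith
  have hB0 : 0 < amax m s := by linarith
  obtain ⟨hu, hv⟩ := norm_u_le h
  have hr := norm_rr m z s
  have hF : amax m z ^ 4 / amax m s * ‖An.gG m z s u v 2‖ ≤ 32 * (amax m s ^ 4 / amax m z) := by
    rw [gG_two, norm_pow]
    calc _ ≤ amax m z ^ 4 / amax m s * (2 * amax m s / amax m z) ^ 5 := by gcongr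
      _ = _ := by field_simp; ring
  unfold frameSum
  split_ifs with hs
  · have hBeq := amax_of_le (m := m) hs
    rw [hBeq] at hu hv hr hF ⊢
    have hr2 : ‖An.rr m z s‖ ≤ 2 := hr.trans (by rw [div_le_iff₀ hA0]; linarith)
    have hc : ‖An.theta m z * ∑ i ∈ Finset.range 5, An.rr m z s ^ i‖ ≤ 31 / amax m z := by
      rw [norm_mul]
      calc _ ≤ 1 / amax m z * (1 + 2 + 2 ^ 2 + 2 ^ 3 + 2 ^ 4) :=
            mul_le_mul (norm_theta m z) (geom5 hr2) (norm_nonneg _) (by positivity)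
        _ = 31 / amax m z := by ring
    set c := An.theta m z * ∑ i ∈ Finset.range 5, An.rr m z s ^ i with hcdef
    have e0 : ‖An.gG m z s u v 0‖ ≤ 31 / amax m z * 2 := by
      simp only [An.gG, An.q1, ← hcdef, Pi.add_apply, Pi.smul_apply, smul_eq_mul, Matrix.cons_val_zero,
        add_zero, norm_mul]
      exact mul_le_mul hc (by simpa using hu) (norm_nonneg _) (by positivity)
    have e1 : ‖An.gG m z s u v 1‖ ≤ 31 / amax m z * 2 := by
      simp only [An.gG, An.q1, ← hcdef, Pi.add_apply, Pi.smul_apply, smul_eq_mul, Matrix.cons_val_one,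
        Matrix.cons_val_zero, add_zero, norm_mul]
      exact mul_le_mul hc (by simpa using hv) (norm_nonneg _) (by positivity)
    have e3 : (31 : ℝ) / amax m z = 31 * (1 ^ 4 / amax m z) := by ring
    rw [e3] at e0 e1
    have e4 : (0 : ℝ) ≤ 1 ^ 4 / amax m z := by positivity
    nlinarith
  · obtain ⟨hB', hs0⟩ := amax_of_gt (m := m) (not_le.mp hs)
    have hρ : ‖An.rr m z s * z ^ m / s ^ m‖ ≤ 2 := by
      rw [norm_div, norm_mul, ← hB', div_le_iff₀ hB0]
      calc _ ≤ 2 * amax m s / amax m z * amax m z :=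
            mul_le_mul hr (norm_le_amax m z) (norm_nonneg _) (by positivity)
        _ = 2 * amax m s := by field_simp
    have hc : ‖An.theta m z * (∑ i ∈ Finset.range 5, An.rr m z s ^ i) -
        An.rr m z s ^ 5 * dAff m z s‖ ≤ 31 / (amax m s * amax m z) := by
      rw [gG_frame m z s hs0, norm_div, norm_neg, norm_mul, norm_den, ← hB']
      calc _ ≤ (1 + 2 + 2 ^ 2 + 2 ^ 3 + 2 ^ 4) / (amax m s * amax m z) := by
            refine div_le_div₀ (by norm_num) (geom5 hρ) (by positivity) ?_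
            exact mul_le_mul_of_nonneg_left (by nlinarith [amax_sq_le m z]) (by linarith)
        _ = _ := by norm_num
    have e : ∀ w : ℂ, ‖w‖ ≤ 2 * amax m s ^ 3 →
        2 * amax m s ^ 2 * ‖An.theta m z * (∑ i ∈ Finset.range 5, An.rr m z s ^ i) * w -
          An.rr m z s ^ 5 * dAff m z s * w‖ ≤ 124 * (amax m s ^ 4 / amax m z) := by
      intro w hw
      rw [← sub_mul, norm_mul]
      calc _ ≤ 2 * amax m s ^ 2 * (31 / (amax m s * amax m z) * (2 * amax m s ^ 3)) := by gcongr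
        _ = _ := by field_simp; ring
    have k0 : An.gG m z s u v 0 = An.theta m z * (∑ i ∈ Finset.range 5, An.rr m z s ^ i) * u := by
      simp [An.gG, An.q1]
    have k1 : An.gG m z s u v 1 = An.theta m z * (∑ i ∈ Finset.range 5, An.rr m z s ^ i) * v := by
      simp [An.gG, An.q1]
    rw [gG_two] at hF ⊢
    rw [k0, k1]
    have h4 : 0 ≤ amax m s ^ 4 / amax m z := by positivity
    nlinarith [e u hu, e v hv]

section Geometry

variable (H : Idx → X m → M3) [ChartedSpace (Cn 2) (X m)] {hm : 1 ≤ m} {hg : GeomSpec m}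
  (hH : IsHermitianMetric 2 (bundle hm hg) H)

include hH

theorem Kfun_bounded : ∃ B : ℝ, ∀ z s u v, An.OnCurve m s u v →
    An.traceFn m (Kfun H z s u v) z s u v ≤ B := by
  obtain ⟨C, hC, hb⟩ := exists_form_bound H hH
  refine ⟨2000000 * C, fun z s u v hon => ?_⟩
  have hq : ∀ φ b, frameSum m z s u v φ ≤ b →
      An.quad (Kfun H z s u v) φ ≤ C * b ^ 2 := by
    intro φ b hle
    obtain ⟨h1, h2⟩ := Kfun_quad_le H hH hC hb (z := z) hon φ
    refine le_trans ?_ (mul_le_mul_of_nonneg_left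
      (pow_le_pow_left₀ (frameSum_nonneg φ) hle 2) hC)
    unfold frameSum
    split_ifs with hs
    · exact h1 hs
    · exact h2 (not_le.mp hs)
  have hA := one_le_amax m z
  have hB := one_le_amax m s
  have hA0 : 0 < amax m z := by linarith
  have hB0 : 0 < amax m s := by linarith
  have a2 := amax_sq_le m z
  have b2 := amax_sq_le m s
  have a2' := le_amax_sq m z
  have b2' := le_amax_sq m s
  have t1 : An.quad (Kfun H z s u v) (An.q1 m z s u v) / (1 + ‖z ^ m‖ ^ 2) ^ 5 ≤ 100 * C := by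
    rw [div_le_iff₀ (by positivity)]
    calc _ ≤ C * (10 * amax m z ^ 5) ^ 2 := hq _ _ (frameSum_q1 hon)
      _ = 100 * C * (amax m z ^ 2) ^ 5 := by ring
      _ ≤ _ := by gcongr
  have t2 : An.quad (Kfun H z s u v) (An.vV u v) / (1 + ‖s ^ m‖ ^ 2) ^ 5 ≤ 100 * C := by
    rw [div_le_iff₀ (by positivity)]
    calc _ ≤ C * (10 * amax m s ^ 5) ^ 2 := hq _ _ (frameSum_vV hon)
      _ = 100 * C * (amax m s ^ 2) ^ 5 := by ring
      _ ≤ _ := by gcongr
  have t3 : An.quad (Kfun H z s u v) (An.wW u v) * (1 + ‖s ^ m‖ ^ 2) ≤ 200 * C := by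
    calc _ ≤ C * (10 / amax m s) ^ 2 * (2 * amax m s ^ 2) :=
          mul_le_mul (hq _ _ (frameSum_wW hon)) b2' (by positivity) (by positivity)
      _ = _ := by field_simp; ring
  have t4 : An.quad (Kfun H z s u v) (An.gG m z s u v) * (1 + ‖z ^ m‖ ^ 2) /
      (1 + ‖s ^ m‖ ^ 2) ^ 4 ≤ 720000 * C := by
    rw [div_le_iff₀ (by positivity)]
    calc _ ≤ C * (600 * (amax m s ^ 4 / amax m z)) ^ 2 * (2 * amax m z ^ 2) :=
          mul_le_mul (hq _ _ (frameSum_gG hon)) a2' (by positivity) (by positivity)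
      _ = 720000 * C * (amax m s ^ 2) ^ 4 := by field_simp; ring
      _ ≤ _ := by gcongr
  unfold An.traceFn
  linarith

theorem bridge (hpos : IsGriffithsPositive 2 (bundle hm hg) H) : Nonempty (An.MetricData m) :=
  ⟨{ K := Kfun H
     posDef := fun _ _ _ _ h => Kfun_posDef H hH h
     neg_sign := fun _ _ _ _ h => Kfun_neg H hH h
     smooth := fun W u v hW hu hv hon a b => Kfun_smooth H hH W u v hW hu hv hon a b
     curv_z := fun z s u v hon hs φ => Kfun_curv_z H hH hpos z s u v hon hs φ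
     curv_s := fun W u v hW hu hv hon z s hs φ => Kfun_curv_s H hH hpos W u v hW hu hv hon z s hs φ
     bounded := Kfun_bounded H hH }⟩

end Geometry

end Vale.Agent.P296.Br
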